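import Mathlib
import Vale.Agent.P204.Est.Apriori
import Vale.Agent.P204.General.Repr
import Vale.Agent.P204.General.VolLower
import Vale.Agent.P204.General.Basic.Main

/-!
# P204 module G: the manifold and the unit tangent vectors as measure spaces
-/

open MeasureTheory Matrix Filter Set
open scoped ContDiff Topology

namespace Vale.Agent.P204.General.Apriori

open Vale.Agent.P204.Torus

variable {N K : ℕ} (A : Atlas N K)

/-- The points. -/
abbrev XS : Type := A.X
/-- The atoms. -/
abbrev TS : Type := A.unitTan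

/-- The volume on the points. -/
noncomputable def volS : Measure (XS A) := A.vol.comap Subtype.val

/-- A current on the atoms. -/
noncomputable def mS (m : Measure (Amb N × Amb N)) : Measure (TS A) := m.comap Subtype.val

/-- The foot point. -/
def pr (z : TS A) : XS A := ⟨z.1.1, z.2.1⟩

/-- The distance. -/
noncomputable def rS (x y : XS A) : ℝ := ‖x.1 - y.1‖

theorem measurable_tan : MeasurableSet A.unitTan := A.isCompact_unitTan.isClosed.measurableSet

theorem measurable_pr : Measurable (pr A) :=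
  Measurable.subtype_mk (measurable_fst.comp measurable_subtype_coe)

theorem continuous_pr : Continuous (pr A) :=
  (continuous_fst.comp continuous_subtype_val).subtype_mk _

instance isFiniteMeasure_volS : IsFiniteMeasure (volS A) :=
  isFiniteMeasure_comap_sub (measurableSet_X A)

theorem volS_real (B : Set (Amb N)) : (volS A).real (Subtype.val ⁻¹' B) = A.vol.real B :=
  real_comap_sub (measurableSet_X A) (ae_mem_X A) B

theorem int_volS (f : Amb N → ℝ) : ∫ x, f x.1 ∂volS A = ∫ x, f x ∂A.vol :=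
  integral_comap_sub (measurableSet_X A) (ae_mem_X A) f

theorem integrable_volS {f : Amb N → ℝ} :
    Integrable (fun x : XS A => f x.1) (volS A) ↔ Integrable f A.vol :=
  integrable_comap_sub (measurableSet_X A) (ae_mem_X A)

theorem exists_geom : ∃ D AA : ℝ, Est.Geom (volS A) (rS A) 1 AA D := by
  obtain ⟨R, hR⟩ := A.compact.isBounded.exists_norm_le
  obtain ⟨C, hC, hball⟩ := exists_vol_ball A
  refine ⟨2 * R, C, ⟨le_rfl, hC, ?_, fun x y => norm_nonneg _, fun x y => ?_, fun x y => norm_sub_rev _ _,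
    fun x y z => ?_, fun x t ht => ?_⟩⟩
  · unfold rS; fun_prop
  · rw [two_mul]; exact (norm_sub_le _ _).trans (add_le_add (hR _ x.2) (hR _ y.2))
  · rw [one_mul]
    exact norm_sub_le_norm_sub_add_norm_sub _ _ _
  · exact (volS_real A {y | ‖x.1 - y‖ ≤ t}).trans_le (hball x.1 t ht.le)

variable {A} {J : Amb N → MN N} {m : Measure (Amb N × Amb N)}

theorem int_mS (hm : ∀ᵐ p ∂m, p ∈ A.unitTan) (f : Amb N × Amb N → ℝ) :
    ∫ p, f p.1 ∂mS A m = ∫ p, f p ∂m :=
  integral_comap_sub (measurable_tan A) hm f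

theorem int_mS₂ (hm : ∀ᵐ p ∂m, p ∈ A.unitTan) (f : Amb N × Amb N → Amb N × Amb N → ℝ) :
    ∫ p, ∫ q, f p.1 q.1 ∂mS A m ∂mS A m = ∫ p, ∫ q, f p q ∂m ∂m := by
  rw [← int_mS hm fun p => ∫ q, f p q ∂m]
  exact integral_congr_ae (ae_of_all _ fun p => int_mS hm (f p.1))

theorem mS_real (hm : ∀ᵐ p ∂m, p ∈ A.unitTan) (B : Set (Amb N × Amb N)) :
    (mS A m).real (Subtype.val ⁻¹' B) = m.real B :=
  real_comap_sub (measurable_tan A) hm B

theorem isFiniteMeasure_mS (hm : IsFiniteMeasure m) : IsFiniteMeasure (mS A m) :=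
  isFiniteMeasure_comap_sub (measurable_tan A)

theorem unit_norm {p : TS A} : ‖p.1.2‖ ≤ 1 ∧ 1 ≤ (N : ℝ) * ‖p.1.2‖ ^ 2 := by
  have h := p.2.2.2
  refine ⟨(pi_norm_le_iff_of_nonneg zero_le_one).2 fun a => ?_, ?_⟩
  · have h1 : p.1.2 a * p.1.2 a ≤ 1 := h ▸
      Finset.single_le_sum (f := fun k => p.1.2 k * p.1.2 k) (fun k _ => mul_self_nonneg _)
        (Finset.mem_univ a)
    rw [Real.norm_eq_abs, abs_le]
    constructor <;> nlinarith
  · refine h.symm.le.trans ((Finset.sum_le_sum fun a _ => ?_).trans_eq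
      (b := ∑ _a : Fin N, ‖p.1.2‖ ^ 2) ?_)
    · rw [← pow_two, ← sq_abs, ← Real.norm_eq_abs]
      exact pow_le_pow_left₀ (norm_nonneg _) (norm_le_pi_norm _ a) 2
    · simp

theorem norm_mulVec_entry {M : MN N} {C : ℝ} (h : ∀ i k, |M i k| ≤ C) (v : Amb N) :
    ‖M *ᵥ v‖ ≤ N * |C| * ‖v‖ := by
  refine (pi_norm_le_iff_of_nonneg (by positivity)).2 fun i => ?_
  rw [Real.norm_eq_abs, mulVec, dotProduct]
  refine (Finset.abs_sum_le_sum_abs _ _).trans ((Finset.sum_le_sum fun k _ => ?_).trans_eq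
    (b := ∑ _k : Fin N, |C| * ‖v‖) ?_)
  · rw [abs_mul]
    exact mul_le_mul ((h i k).trans (le_abs_self C)) (norm_le_pi_norm v k) (abs_nonneg _) (abs_nonneg _)
  · simp [mul_assoc]

theorem exists_op_bounds (hJ : IsACS A J) : ∃ B : ℝ, 0 ≤ B ∧ ∀ x ∈ A.X, ∀ y ∈ A.X, ∀ v,
    ‖A.proj x *ᵥ v‖ ≤ B * ‖v‖ ∧ ‖J x *ᵥ v‖ ≤ B * ‖v‖ ∧
    ‖A.proj x *ᵥ v - A.proj y *ᵥ v‖ ≤ B * ‖x - y‖ * ‖v‖ ∧
    ‖J x *ᵥ v - J y *ᵥ v‖ ≤ B * ‖x - y‖ * ‖v‖ := by
  choose b1 hb1 using fun z : Fin N × Fin N =>
    A.compact.exists_bound_of_continuousOn (A.proj_continuousOn z.1 z.2)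
  choose b2 hb2 using fun z : Fin N × Fin N =>
    A.compact.exists_bound_of_continuousOn (Atlas.J_continuousOn hJ z.1 z.2)
  obtain ⟨L1, hL10, hL1⟩ := A.proj_lipschitz
  obtain ⟨c, L2, -, -, -, -, hL2, -⟩ := basicStmt A J hJ
  set B := ∑ z, |b1 z| + ∑ z, |b2 z| + L1 + |L2|
  have s1 : ∀ z, |b1 z| ≤ B := fun z => by
    have := Finset.single_le_sum (f := fun z => |b1 z|) (fun _ _ => abs_nonneg _) (Finset.mem_univ z)
    have : 0 ≤ ∑ z, |b2 z| := Finset.sum_nonneg fun _ _ => abs_nonneg _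
    simp only [B]; linarith [abs_nonneg L2]
  have s2 : ∀ z, |b2 z| ≤ B := fun z => by
    have := Finset.single_le_sum (f := fun z => |b2 z|) (fun _ _ => abs_nonneg _) (Finset.mem_univ z)
    have : 0 ≤ ∑ z, |b1 z| := Finset.sum_nonneg fun _ _ => abs_nonneg _
    simp only [B]; linarith [abs_nonneg L2]
  have hB : 0 ≤ B := by positivity
  have hLB : L1 ≤ B ∧ |L2| ≤ B := by
    have h1 : 0 ≤ ∑ z, |b1 z| := Finset.sum_nonneg fun _ _ => abs_nonneg _
    have h2 : 0 ≤ ∑ z, |b2 z| := Finset.sum_nonneg fun _ _ => abs_nonneg _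
    constructor <;> simp only [B] <;> linarith [abs_nonneg L2]
  refine ⟨N * B, by positivity, fun x hx y hy v => ?_⟩
  refine ⟨?_, ?_, ?_, ?_⟩
  · refine (norm_mulVec_entry (C := B) (fun i k => ?_) v).trans_eq (by rw [abs_of_nonneg hB])
    exact ((Real.norm_eq_abs _).symm.trans_le (hb1 (i, k) x hx)).trans ((le_abs_self _).trans (s1 _))
  · refine (norm_mulVec_entry (C := B) (fun i k => ?_) v).trans_eq (by rw [abs_of_nonneg hB])
    exact ((Real.norm_eq_abs _).symm.trans_le (hb2 (i, k) x hx)).trans ((le_abs_self _).trans (s2 _))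
  · rw [← sub_mulVec]
    refine (norm_mulVec_entry (C := B * ‖x - y‖) (fun i k => ?_) v).trans_eq
      (by rw [abs_of_nonneg (by positivity)]; ring)
    exact (hL1 x hx y hy i k).trans (mul_le_mul_of_nonneg_right hLB.1 (norm_nonneg _))
  · rw [← sub_mulVec]
    refine (norm_mulVec_entry (C := B * ‖x - y‖) (fun i k => ?_) v).trans_eq
      (by rw [abs_of_nonneg (by positivity)]; ring)
    exact (hL2 x hx y hy i k).trans
      (mul_le_mul_of_nonneg_right ((le_abs_self _).trans hLB.2) (norm_nonneg _))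

/-- The size of a measurable field is measurable. -/
theorem aesm_sN {V : Amb N → MN N} (hV : ∀ i k, AEStronglyMeasurable (fun x => V x i k) A.vol) :
    AEStronglyMeasurable (fun x => A.sN x (V x)) A.vol := by
  have e : (fun x => A.sN x (V x)) = fun x => Real.sqrt (∑ z, A.enc x (V x) z ^ 2) := by
    funext x
    rw [← A.sqrt_sqX, ← A.sq_sN, Atlas.sN, EuclideanSpace.norm_sq_eq]; simp
  rw [e]
  exact Real.continuous_sqrt.comp_aestronglyMeasurable
    (Finset.aestronglyMeasurable_fun_sum _ fun z _ => (aesm_enc hV z).pow 2)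

theorem aesm_antiX (hJ : IsACS A J) {V : Amb N → MN N}
    (hV : ∀ i k, AEStronglyMeasurable (fun x => V x i k) A.vol) (i k : Fin N) :
    AEStronglyMeasurable (fun x => antiX J x (V x) i k) A.vol := by
  have hJm : ∀ i k, AEStronglyMeasurable (fun x => J x i k) A.vol := fun i k =>
    aesm_of_continuousOn (ae_mem_X A) (Atlas.J_continuousOn hJ i k)
  simp only [antiX, Matrix.smul_apply, Matrix.sub_apply, smul_eq_mul]
  exact aestronglyMeasurable_const.mul ((hV i k).sub
    (aesm_mul (aesm_mul (F := fun x => (J x)ᵀ) (fun i k => hJm k i) hV) hJm i k))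

theorem aesm_inv11X (hJ : IsACS A J) {V : Amb N → MN N}
    (hV : ∀ i k, AEStronglyMeasurable (fun x => V x i k) A.vol) (i k : Fin N) :
    AEStronglyMeasurable (fun x => inv11X J x (V x) i k) A.vol := by
  have hJm : ∀ i k, AEStronglyMeasurable (fun x => J x i k) A.vol := fun i k =>
    aesm_of_continuousOn (ae_mem_X A) (Atlas.J_continuousOn hJ i k)
  simp only [inv11X, Matrix.smul_apply, Matrix.add_apply, smul_eq_mul]
  exact aestronglyMeasurable_const.mul ((hV i k).add
    (aesm_mul (aesm_mul (F := fun x => (J x)ᵀ) (fun i k => hJm k i) hV) hJm i k))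

theorem aesm_volS {f : Amb N → ℝ} (hf : AEStronglyMeasurable f A.vol) :
    AEStronglyMeasurable (fun x : XS A => f x.1) (volS A) := by
  have h : Measure.QuasiMeasurePreserving (Subtype.val : XS A → Amb N) (volS A) A.vol :=
    ⟨measurable_subtype_coe, by rw [volS, map_comap_sub (measurableSet_X A) (ae_mem_X A)]⟩
  exact hf.comp_quasiMeasurePreserving h

/-- The sizes of the two parts of a square integrable field, on the points. -/
theorem memLp_parts (hJ : IsACS A J) {V : Amb N → MN N} (hV : L2X A V) :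
    MemLp (fun x : XS A => A.sN x.1 (antiX J x.1 (V x.1))) 2 (volS A) ∧
    MemLp (fun x : XS A => A.sN x.1 (inv11X J x.1 (V x.1))) 2 (volS A) := by
  obtain ⟨Ca, hCa, hab⟩ := Atlas.exists_anti_bound hJ
  have gen : ∀ W : Amb N → MN N, (∀ i k, AEStronglyMeasurable (fun x => W x i k) A.vol) →
      (∀ x ∈ A.X, A.sN x (W x) ≤ Ca * A.sN x (V x)) →
      MemLp (fun x : XS A => A.sN x.1 (W x.1)) 2 (volS A) := fun W hW hle => by
    have hi : Integrable (fun x => A.sN x (W x) ^ 2) A.vol := by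
      refine (hV.2.const_mul (Ca ^ 2)).mono' ((aesm_sN hW).pow 2) ?_
      filter_upwards [ae_mem_X A] with x hx
      rw [Real.norm_eq_abs, abs_of_nonneg (sq_nonneg _), ← A.sq_sN x (V x), ← mul_pow]
      exact pow_le_pow_left₀ (A.sN_nonneg _ _) (hle x hx) 2
    refine (memLp_two_iff_integrable_sq
      (aesm_volS (f := fun x => A.sN x (W x)) (aesm_sN hW))).2 ?_
    exact (integrable_volS A (f := fun x => A.sN x (W x) ^ 2)).2 hi
  exact ⟨gen (fun x => antiX J x (V x)) (aesm_antiX hJ hV.1) fun x hx => (hab x hx (V x)).1,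
    gen (fun x => inv11X J x (V x)) (aesm_inv11X hJ hV.1) fun x hx => (hab x hx (V x)).2⟩

theorem n2_eq (V : Amb N → MN N) :
    A.n2 V = Real.sqrt (∫ x, A.sN x.1 (V x.1) ^ 2 ∂volS A) := by
  rw [Atlas.n2, int_volS A fun x => A.sN x (V x) ^ 2]
  simp only [A.sq_sN]

theorem dens_cont (d : Fin K) : Continuous (A.dens d) := by
  unfold Atlas.dens
  simp only [Matrix.det_apply', Matrix.mul_apply]
  exact continuous_finsetSum _ fun c _ => ((A.chi_cont c).comp (A.psi_cont d)).mul
    (continuous_finsetSum _ fun σ _ => continuous_const.mul (continuous_finsetProd _ fun i _ =>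
      continuous_finsetSum _ fun l _ => continuous_const.mul (A.dmat_cont d l i)))

theorem measurable_wedge {Z : Type*} [MeasurableSpace Z] {P Q : Z → M4}
    (hP : ∀ i k, Measurable fun z => P z i k) (hQ : ∀ i k, Measurable fun z => Q z i k) :
    Measurable fun z => wedge (P z) (Q z) := by
  unfold wedge
  exact (((((hP 0 1).mul (hQ 2 3)).sub ((hP 0 2).mul (hQ 1 3))).add ((hP 0 3).mul (hQ 1 2))).add
    ((hP 1 2).mul (hQ 0 3)) |>.sub ((hP 1 3).mul (hQ 0 2))).add ((hP 2 3).mul (hQ 0 1))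

theorem measurable_wedgePt {Z : Type*} [MeasurableSpace Z] {f : Z → Amb N} {g g' : Z → MN N}
    (hf : Measurable f) (hg : ∀ i k, Measurable fun z => g z i k)
    (hg' : ∀ i k, Measurable fun z => g' z i k) :
    Measurable fun z => A.wedgePt (f z) (g z) (g' z) := by
  have hp : ∀ d, Measurable fun z => A.phi d (f z) := fun d => (A.phi_cont d).measurable.comp hf
  have hD : ∀ d a i, Measurable fun z => A.dmat d (A.phi d (f z)) a i := fun d a i =>
    (A.dmat_cont d a i).measurable.comp (hp d)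
  have hdens : ∀ d, Measurable fun z => A.dens d (A.phi d (f z)) := fun d =>
    (dens_cont d).measurable.comp (hp d)
  have hP : ∀ (h : Z → MN N), (∀ i k, Measurable fun z => h z i k) → ∀ d i k,
      Measurable fun z => A.pullAt d (h z) (A.phi d (f z)) i k := fun h hh d i k => by
    simp only [Atlas.pullAt_apply]
    exact Finset.measurable_fun_sum _ fun b _ => (Finset.measurable_fun_sum _ fun a _ =>
      (hD d a i).mul (hh a b)).mul (hD d b k)
  unfold Atlas.wedgePt
  refine Finset.measurable_fun_sum _ fun d _ => ((A.chi_cont d).measurable.comp hf).mul ?_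
  refine Measurable.div ?_ (hdens d)
  have h1 := hP g hg d
  have h2 := hP g' hg' d
  exact measurable_wedge h1 h2

end Vale.Agent.P204.General.Apriori
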