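import Mathlib
import Vale.Agent.P204.General.Apriori.Setup

/-!
# P204 module G: the test form on a transported line
-/

open MeasureTheory Matrix Filter Set
open scoped ContDiff Topology

namespace Vale.Agent.P204.General.Apriori

open Vale.Agent.P204.Torus

variable {N K : ℕ} {A : Atlas N K} {J : Amb N → MN N}

/-- The value of the test form on an atom moved to a nearby point. -/
noncomputable def lineVal (A : Atlas N K) (J : Amb N → MN N) (M : MN N) (y : Amb N)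
    (p : Amb N × Amb N) : ℝ :=
  (A.proj y *ᵥ p.2) ⬝ᵥ (M *ᵥ (A.proj y *ᵥ (J p.1 *ᵥ p.2)))

theorem rsX_pos {s : ℝ} (hs : 0 < s) (x y : Amb N) : 0 < rsX s x y :=
  Real.sqrt_pos.2 (by positivity)

theorem le_rsX (s : ℝ) (x y : Amb N) : s ≤ rsX s x y :=
  (le_abs_self s).trans (Real.abs_le_sqrt (by nlinarith [sq_nonneg ‖x - y‖]))

/-- A vector near a unit vector is long. -/
theorem lower_sq {u v : Amb N} {Bo d : ℝ} (hN1 : (1 : ℝ) ≤ N) (hBo : 0 ≤ Bo) (hv1 : ‖v‖ ≤ 1)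
    (hv : 1 ≤ (N : ℝ) * ‖v‖ ^ 2) (h : ‖u - v‖ ≤ Bo * d * ‖v‖)
    (hd : d ≤ 1 / (2 * ((N : ℝ) + 1) * (Bo + 1))) :
    1 / (4 * (N : ℝ) ^ 2 + 1) ≤ u ⬝ᵥ u := by
  have h12 : Bo * d ≤ 1 / (2 * N) := by
    refine (mul_le_mul_of_nonneg_left hd hBo).trans ?_
    rw [mul_one_div, div_le_div_iff₀ (by positivity) (by positivity)]
    nlinarith
  have h13 : (1 : ℝ) / N ≤ ‖v‖ := by
    rw [div_le_iff₀ (by linarith only [hN1])]
    nlinarith [norm_nonneg v]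
  have h14 : 1 / (2 * (N : ℝ)) ≤ ‖u‖ := by
    have h11 : ‖u - v‖ ≤ 1 / (2 * N) := h.trans
      ((mul_le_mul_of_nonneg_right h12 (norm_nonneg _)).trans
        (mul_le_of_le_one_right (by positivity) hv1))
    have h10 : ‖v‖ ≤ ‖u‖ + ‖u - v‖ := by
      rw [norm_sub_rev]
      exact norm_le_norm_add_norm_sub' v u
    have : (1 : ℝ) / N = 1 / (2 * N) + 1 / (2 * N) := by field_simp; ring
    linarith only [h13, h11, h10, this]
  have h15 : ‖u‖ ^ 2 ≤ u ⬝ᵥ u := by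
    have hn : ‖u‖ ≤ Real.sqrt (u ⬝ᵥ u) :=
      (pi_norm_le_iff_of_nonneg (Real.sqrt_nonneg _)).2 fun i => by
        rw [Real.norm_eq_abs]
        refine Real.abs_le_sqrt ?_
        rw [pow_two]
        exact Finset.single_le_sum (f := fun k => u k * u k) (fun k _ => mul_self_nonneg _)
          (Finset.mem_univ i)
    calc ‖u‖ ^ 2 ≤ Real.sqrt (u ⬝ᵥ u) ^ 2 := pow_le_pow_left₀ (norm_nonneg _) hn 2
      _ = u ⬝ᵥ u := Real.sq_sqrt (Finset.sum_nonneg fun i _ => mul_self_nonneg _)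
  refine le_trans ?_ ((pow_le_pow_left₀ (by positivity) h14 2).trans h15)
  rw [div_pow, one_pow]
  exact one_div_le_one_div_of_le (by positivity) (by linarith only [mul_pow (2:ℝ) N 2])

theorem exists_line_lower (hJ : IsACS A J) (hT : TestStmt) :
    ∃ c C δ : ℝ, 0 < c ∧ 0 ≤ C ∧ 0 < δ ∧ ∀ s, 0 < s → s ≤ 1 → ∀ x ∈ A.X, ∀ y ∈ A.X,
      ∀ p : TS A,
      -(C * (1 / rsX s x y + ‖y - p.1.1‖ / rsX s x y ^ 2)) ≤ lineVal A J (A.ddPot J s x y) y p.1 ∧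
      (‖y - p.1.1‖ ≤ δ → c * (s ^ 2 / rsX s x y ^ 4)
          - C * (1 / rsX s x y + ‖y - p.1.1‖ / rsX s x y ^ 2)
        ≤ lineVal A J (A.ddPot J s x y) y p.1) := by
  obtain ⟨ct, Ct₀, hct, htest⟩ := hT A J hJ
  set Ct := max Ct₀ 1
  have hCt : Ct₀ ≤ Ct := le_max_left _ _
  have hCt1 : 1 ≤ Ct := le_max_right _ _
  obtain ⟨Bo, hBo, hops⟩ := exists_op_bounds hJ
  obtain ⟨Cp, hCp, hpair⟩ := A.exists_pairing_bound
  obtain ⟨cg, Cg, hcg, hg⟩ := Atlas.g_unit_bounds hJ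
  have hN : ∀ p : TS A, (1 : ℝ) ≤ N := fun p => by
    have h := (unit_norm (A := A) (p := p)).2
    rcases Nat.eq_zero_or_pos N with h0 | h0
    · subst h0; norm_num at h
    · exact_mod_cast h0
  -- the transport error is `C d`
  set Cd := Bo * Bo + Bo
  set C := Cp * Bo * Cd * Ct + N * Bo ^ 2 * Ct
  refine ⟨2 * cg / Ct ^ 2 / (4 * (N : ℝ) ^ 2 + 1), C, 1 / (2 * ((N : ℝ) + 1) * (Bo + 1)), by positivity,
    by positivity, by positivity, fun s hs hs1 x hx y hy p => ?_⟩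
  obtain ⟨-, -, -, -, -, -, -, hpt⟩ := htest s hs hs1
  obtain ⟨hq1, hq2, hsize, -, hline, -⟩ := hpt x hx y hy
  set r := rsX s x y
  have hr : 0 < r := rsX_pos hs x y
  set d := ‖y - p.1.1‖
  set v := p.1.2
  set M := A.ddPot J s x y
  set u := A.proj y *ᵥ v
  set u' := A.proj y *ᵥ (J p.1.1 *ᵥ v)
  have hv1 : ‖v‖ ≤ 1 := (unit_norm (A := A) (p := p)).1
  have hp1 : p.1.1 ∈ A.X := p.2.1
  have hvt : A.IsTan p.1.1 v := p.2.2.1
  have hu : ‖u‖ ≤ Bo := by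
    obtain ⟨h, -, -, -⟩ := hops y hy y hy v
    exact h.trans (mul_le_of_le_one_right hBo hv1)
  have hut : A.IsTan y u := A.proj_tan hy v
  have hJu : J y *ᵥ u = J y *ᵥ v := Atlas.J_proj hJ hy v
  have hwt : A.IsTan y (u' - J y *ᵥ u) := by
    rw [sub_eq_add_neg]
    exact A.isTan_add (A.proj_tan hy _) (A.isTan_neg (Atlas.J_tan hJ hy u))
  have hw : ‖u' - J y *ᵥ u‖ ≤ Cd * d := by
    have e : u' - J y *ᵥ u = (A.proj y *ᵥ (J p.1.1 *ᵥ v) - A.proj p.1.1 *ᵥ (J p.1.1 *ᵥ v))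
        - (J y *ᵥ v - J p.1.1 *ᵥ v) := by
      rw [hJu, A.proj_fix (Atlas.J_tan hJ hp1 v)]
      simp only [u']
      abel
    rw [e]
    obtain ⟨-, -, h3, -⟩ := hops y hy p.1.1 hp1 (J p.1.1 *ᵥ v)
    obtain ⟨-, -, -, h4⟩ := hops y hy p.1.1 hp1 v
    obtain ⟨-, h2, -, -⟩ := hops p.1.1 hp1 y hy v
    refine (norm_sub_le _ _).trans ?_
    have h5 : ‖J p.1.1 *ᵥ v‖ ≤ Bo := h2.trans (mul_le_of_le_one_right hBo hv1)
    have h6 := h3.trans (mul_le_mul_of_nonneg_left h5 (by positivity))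
    have h7 := h4.trans (mul_le_of_le_one_right (by positivity) hv1)
    simp only [Cd]
    nlinarith
  have hsM : A.sN y M ≤ Ct / r ^ 2 := by
    rw [← A.sqrt_sqX]
    exact hsize.trans (div_le_div_of_nonneg_right hCt (by positivity))
  have herr : |u ⬝ᵥ (M *ᵥ (u' - J y *ᵥ u))| ≤ Cp * Bo * Cd * Ct * (d / r ^ 2) := by
    refine (hpair y M u _ hut hwt).trans ?_
    calc Cp * ‖u‖ * ‖u' - J y *ᵥ u‖ * A.sN y M ≤ Cp * Bo * (Cd * d) * (Ct / r ^ 2) := by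
          have := A.sN_nonneg y M
          gcongr
      _ = _ := by ring
  have e0 : lineVal A J M y p.1 = u ⬝ᵥ (M *ᵥ (J y *ᵥ u)) + u ⬝ᵥ (M *ᵥ (u' - J y *ᵥ u)) := by
    simp only [lineVal, u', u, mulVec_sub, dotProduct_sub]
    ring
  -- the main term
  set t2 := u ⬝ᵥ u
  have ht0 : 0 ≤ t2 := Finset.sum_nonneg fun i _ => mul_self_nonneg _
  have ht2 : t2 ≤ N * Bo ^ 2 := by
    refine (Finset.sum_le_sum fun i _ => ?_).trans_eq (b := ∑ _i : Fin N, Bo ^ 2) (by simp)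
    rw [← pow_two, ← sq_abs, ← Real.norm_eq_abs]
    exact pow_le_pow_left₀ (norm_nonneg _) ((norm_le_pi_norm u i).trans hu) 2
  have hmain : t2 * (2 * cg / Ct ^ 2 * (s ^ 2 / r ^ 4)) - t2 * (Ct / r) ≤ u ⬝ᵥ (M *ᵥ (J y *ᵥ u)) := by
    rcases eq_or_ne u 0 with h0 | h0
    · simp [t2, h0]
    have htp : 0 < t2 := lt_of_le_of_ne ht0 fun h => h0 (dotProduct_self_eq_zero.1 h.symm)
    set τ := Real.sqrt t2
    have hτ : 0 < τ := Real.sqrt_pos.2 htp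
    have hτ2 : τ * τ = t2 := Real.mul_self_sqrt ht0
    set l := τ⁻¹ • u
    have hlt : A.IsTan y l := A.isTan_smul _ hut
    have hl1 : l ⬝ᵥ l = 1 := by
      simp only [l, smul_dotProduct, dotProduct_smul, smul_eq_mul]
      rw [← mul_assoc, ← mul_inv, hτ2, inv_mul_cancel₀ htp.ne']
    have hl := hline l hlt hl1
    have e1 : u ⬝ᵥ (M *ᵥ (J y *ᵥ u)) = t2 * (l ⬝ᵥ (M *ᵥ (J y *ᵥ l))) := by
      simp only [l, mulVec_smul, smul_dotProduct, dotProduct_smul, smul_eq_mul, ← hτ2]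
      field_simp
    rw [e1, ← mul_sub]
    refine mul_le_mul_of_nonneg_left ?_ ht0
    have hlz : (y, l) ∈ A.unitTan := ⟨hy, hlt, hl1⟩
    have hgl := (hg _ hlz).1
    have hoff := Atlas.offX_nonneg hJ hlt (x - y)
    have hQ : 0 < A.q0 J x y + s ^ 2 := lt_of_lt_of_le (by positivity) hq1
    have hfrac : 2 * cg / Ct ^ 2 * (s ^ 2 / r ^ 4)
        ≤ 2 * (A.offX J y l (x - y) + s ^ 2 * (l ⬝ᵥ (A.gMat J y *ᵥ l))) / (A.q0 J x y + s ^ 2) ^ 2 := by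
      rw [div_mul_div_comm]
      refine div_le_div₀ (by have := hcg.le; nlinarith [mul_le_mul_of_nonneg_left hgl (sq_nonneg s)])
        (by nlinarith [mul_le_mul_of_nonneg_left hgl (sq_nonneg s)]) (by positivity) ?_
      calc (A.q0 J x y + s ^ 2) ^ 2 ≤ (Ct * r ^ 2) ^ 2 :=
            pow_le_pow_left₀ hQ.le (hq2.trans (mul_le_mul_of_nonneg_right hCt (sq_nonneg _))) 2
        _ = Ct ^ 2 * r ^ 4 := by ring
    have h1 := (abs_le.1 hl).1
    have h2 : Ct₀ / r ≤ Ct / r := div_le_div_of_nonneg_right hCt hr.le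
    linarith
  have hCC : Cp * Bo * Cd * Ct * (d / r ^ 2) + N * Bo ^ 2 * (Ct / r) ≤ C * (1 / r + d / r ^ 2) := by
    have a1 : 0 ≤ Cp * Bo * Cd * Ct * (1 / r) := by positivity
    have a2 : 0 ≤ N * Bo ^ 2 * Ct * (d / r ^ 2) := by positivity
    have e : C * (1 / r + d / r ^ 2) = Cp * Bo * Cd * Ct * (1 / r) + Cp * Bo * Cd * Ct * (d / r ^ 2)
        + (N * Bo ^ 2 * (Ct / r) + N * Bo ^ 2 * Ct * (d / r ^ 2)) := by simp only [C]; ring
    linarith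
  have ht3 : t2 * (Ct / r) ≤ N * Bo ^ 2 * (Ct / r) :=
    mul_le_mul_of_nonneg_right ht2 (by positivity)
  have hmain0 : 0 ≤ 2 * cg / Ct ^ 2 * (s ^ 2 / r ^ 4) := by positivity
  have h8 := (abs_le.1 herr).1
  refine ⟨?_, fun hd => ?_⟩
  · rw [e0]
    have h17 := mul_nonneg ht0 hmain0
    linarith only [h17, hmain, ht3, hCC, h8]
  · have hlow : 1 / (4 * (N : ℝ) ^ 2 + 1) ≤ t2 := by
      obtain ⟨-, -, h3, -⟩ := hops y hy p.1.1 hp1 v
      rw [A.proj_fix hvt] at h3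
      exact lower_sq (hN p) hBo hv1 (unit_norm (A := A) (p := p)).2 h3 hd
    have h16 : 2 * cg / Ct ^ 2 / (4 * (N : ℝ) ^ 2 + 1) * (s ^ 2 / r ^ 4)
        ≤ t2 * (2 * cg / Ct ^ 2 * (s ^ 2 / r ^ 4)) := by
      refine (le_of_eq ?_).trans (mul_le_mul_of_nonneg_right hlow hmain0)
      ring
    rw [e0]
    linarith only [h16, hmain, ht3, hCC, h8]

end Vale.Agent.P204.General.Apriori
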