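import Mathlib
import Vale.Agent.P204.General.Apriori.Setup

/-!
# P204 module G: integrals of wedge products
-/

open MeasureTheory Matrix Filter Set
open scoped ContDiff Topology

namespace Vale.Agent.P204.General.Apriori

open Vale.Agent.P204.Torus

variable {N K : ℕ} {A : Atlas N K} {J : Amb N → MN N} {m : Measure (Amb N × Amb N)}

theorem exists_wedge_bound (hJ : IsACS A J) : ∃ C : ℝ, 1 ≤ C ∧
    (∀ x ∈ A.X, ∀ M M', |A.wedgePt x M M'| ≤ C * A.sN x M * A.sN x M') ∧
    (∀ x ∈ A.X, ∀ M, A.sN x (antiX J x M) ≤ C * A.sN x M ∧ A.sN x (inv11X J x M) ≤ C * A.sN x M) ∧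
    (∀ x ∈ A.X, ∀ M M', Mᵀ = -M → M'ᵀ = -M' → |A.wedgePt x M M'| ≤
      C * (A.sN x (antiX J x M) * A.sN x (antiX J x M'))
      + C * (A.sN x (inv11X J x M) * A.sN x (inv11X J x M'))) := by
  obtain ⟨c, C, -, -, -, -, -, hw, -, h0, -⟩ := basicStmt A J hJ
  obtain ⟨Ca, hCa, hab⟩ := Atlas.exists_anti_bound hJ
  have hw' : ∀ x ∈ A.X, ∀ M M', |A.wedgePt x M M'| ≤ max C Ca * A.sN x M * A.sN x M' :=
    fun x hx M M' => by
      refine (hw x hx M M').trans ?_
      rw [A.sqrt_sqX, A.sqrt_sqX]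
      have := A.sN_nonneg x M
      have := A.sN_nonneg x M'
      gcongr
      exact le_max_left _ _
  refine ⟨max C Ca, hCa.trans (le_max_right _ _), hw', fun x hx M => ?_, fun x hx M M' hM hM' => ?_⟩
  · have := A.sN_nonneg x M
    exact ⟨(hab x hx M).1.trans (by gcongr; exact le_max_right _ _),
      (hab x hx M).2.trans (by gcongr; exact le_max_right _ _)⟩
  · rw [Atlas.wedgePt_split h0 hx hM hM']
    refine (abs_add_le _ _).trans (add_le_add ?_ ?_) <;>
      exact (hw' x hx _ _).trans_eq (mul_assoc _ _ _)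

theorem inv_zero_of_anti {x : Amb N} {M : MN N} (h : antiX J x M = M) : inv11X J x M = 0 := by
  have e := inv_add_anti J x M
  rw [h] at e
  simpa using e

/-- A measurable version of a field. -/
theorem exists_meas {V : Amb N → MN N} (hV : L2X A V) : ∃ V' : Amb N → MN N,
    (∀ i k, Measurable fun x => V' x i k) ∧ ∀ᵐ y ∂volS A, V y.1 = V' y.1 := by
  refine ⟨fun x => Matrix.of fun i k => (hV.1 i k).mk _ x, fun i k =>
    (hV.1 i k).stronglyMeasurable_mk.measurable, ?_⟩
  have h : ∀ᵐ x ∂A.vol, ∀ i k, V x i k = (hV.1 i k).mk _ x :=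
    ae_all_iff.2 fun i => ae_all_iff.2 fun k => (hV.1 i k).ae_eq_mk
  have hq : Measure.QuasiMeasurePreserving (Subtype.val : XS A → Amb N) (volS A) A.vol :=
    ⟨measurable_subtype_coe, by rw [volS, map_comap_sub (measurableSet_X A) (ae_mem_X A)]⟩
  filter_upwards [hq.ae h] with y hy
  ext i k
  exact hy i k

theorem integrable_sN {V : Amb N → MN N} (hV : L2X A V) :
    MemLp (fun y : XS A => A.sN y.1 (V y.1)) 2 (volS A) := by
  refine (memLp_two_iff_integrable_sq (aesm_volS (f := fun x => A.sN x (V x)) (aesm_sN hV.1))).2 ?_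
  refine (integrable_volS A (f := fun x => A.sN x (V x) ^ 2)).2 ?_
  simp only [A.sq_sN]
  exact hV.2

/-- The pairing of a field with a bounded continuous family is integrable. -/
theorem integrable_wedge (hJ : IsACS A J) [IsFiniteMeasure (mS A m)] {V : Amb N → MN N}
    (hV : L2X A V) {g : Amb N → Amb N × Amb N → MN N}
    (hg : ∀ i k, Continuous fun z : A.X × A.unitTan => g z.1 z.2 i k) {B : ℝ}
    (hB : ∀ x ∈ A.X, ∀ p ∈ A.unitTan, A.sN x (g x p) ≤ B) :
    Integrable (fun z : XS A × TS A => A.wedgePt z.1.1 (V z.1.1) (g z.1.1 z.2.1))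
      ((volS A).prod (mS A m)) := by
  obtain ⟨C, hC, hw, -, -⟩ := exists_wedge_bound hJ
  obtain ⟨V', hV'm, hV'⟩ := exists_meas hV
  have hmeas : Measurable fun z : XS A × TS A => A.wedgePt z.1.1 (V' z.1.1) (g z.1.1 z.2.1) :=
    measurable_wedgePt (measurable_subtype_coe.comp measurable_fst)
      (fun i k => (hV'm i k).comp (measurable_subtype_coe.comp measurable_fst))
      (fun i k => (hg i k).measurable)
  have hae : (fun z : XS A × TS A => A.wedgePt z.1.1 (V' z.1.1) (g z.1.1 z.2.1))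
      =ᵐ[(volS A).prod (mS A m)] fun z => A.wedgePt z.1.1 (V z.1.1) (g z.1.1 z.2.1) := by
    filter_upwards [Measure.quasiMeasurePreserving_fst.ae hV'] with z hz
    rw [hz]
  refine Integrable.mono' ((((integrable_sN hV).integrable one_le_two).const_mul
    (C * B)).comp_fst _) (hmeas.aestronglyMeasurable.congr hae) (ae_of_all _ fun z => ?_)
  rw [Real.norm_eq_abs]
  refine (hw _ z.1.2 _ _).trans ?_
  have := hB _ z.1.2 _ z.2.2
  have := A.sN_nonneg z.1.1 (V z.1.1)
  calc C * A.sN z.1.1 (V z.1.1) * A.sN z.1.1 (g z.1.1 z.2.1)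
      ≤ C * A.sN z.1.1 (V z.1.1) * B := by gcongr
    _ = _ := by ring

/-- The self pairing is integrable. -/
theorem integrable_self (hJ : IsACS A J) {V : Amb N → MN N} (hV : L2X A V) :
    Integrable (fun y : XS A => A.wedgePt y.1 (V y.1) (V y.1)) (volS A) := by
  obtain ⟨C, hC, hw, -, -⟩ := exists_wedge_bound hJ
  obtain ⟨V', hV'm, hV'⟩ := exists_meas hV
  have hmeas : Measurable fun y : XS A => A.wedgePt y.1 (V' y.1) (V' y.1) :=
    measurable_wedgePt measurable_subtype_coe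
      (fun i k => (hV'm i k).comp measurable_subtype_coe)
      (fun i k => (hV'm i k).comp measurable_subtype_coe)
  refine Integrable.mono' ((integrable_sN hV).integrable_sq.const_mul C)
    (hmeas.aestronglyMeasurable.congr ?_) (ae_of_all _ fun y => ?_)
  · filter_upwards [hV'] with y hy
    rw [hy]
  · rw [Real.norm_eq_abs]
    exact (hw _ y.2 _ _).trans_eq (by ring)

theorem sqrt_sq_parts {C : ℝ} (hC0 : 0 ≤ C)
    (hab : ∀ x ∈ A.X, ∀ M, A.sN x (antiX J x M) ≤ C * A.sN x M) {V : Amb N → MN N} (hV : L2X A V) :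
    Real.sqrt (∫ y, A.sN y.1 (antiX J y.1 (V y.1)) ^ 2 ∂volS A) ≤ C * A.n2 V := by
  have e : C * A.n2 V = Real.sqrt (∫ y, C ^ 2 * A.sN y.1 (V y.1) ^ 2 ∂volS A) := by
    rw [integral_const_mul, Real.sqrt_mul (sq_nonneg C), Real.sqrt_sq hC0, n2_eq]
  rw [e]
  refine Real.sqrt_le_sqrt (integral_mono_of_nonneg (ae_of_all _ fun y => sq_nonneg _)
    ((integrable_sN hV).integrable_sq.const_mul _) (ae_of_all _ fun y => ?_))
  simp only [← mul_pow]
  exact pow_le_pow_left₀ (A.sN_nonneg _ _) (hab _ y.2 _) 2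

end Vale.Agent.P204.General.Apriori
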