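import Mathlib
import Vale.Agent.P204.General.Apriori.Pair

/-!
# P204 module G: the quadratic inequality
-/

open MeasureTheory Matrix Filter Set
open scoped ContDiff Topology

namespace Vale.Agent.P204.General.Apriori

open Vale.Agent.P204.Torus

variable {N K : ℕ} {A : Atlas N K} {J : Amb N → MN N} {m : Measure (Amb N × Amb N)}

theorem kern_eq (ε t : ℝ) : kern ε t = Est.ker 5 ε t := rfl

theorem kern_le_three {ε : ℝ} (hε : 0 < ε) (t : ℝ) : kern ε t ≤ Est.ker 3 ε t :=
  Est.ker_mono (by norm_num) hε t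

/-- The weight of the points within `c ε`. -/
noncomputable def nearW (c ε t : ℝ) : ℝ := if t ≤ c * ε then 1 / ε ^ 4 else 0

theorem nearW_nonneg {c ε : ℝ} (hε : 0 < ε) (t : ℝ) : 0 ≤ nearW c ε t := by
  unfold nearW; split_ifs <;> positivity

theorem nearW_le {c ε : ℝ} (hε : 0 < ε) (t : ℝ) : nearW c ε t ≤ 1 / ε ^ 4 := by
  unfold nearW; split_ifs
  · exact le_rfl
  · positivity

theorem measurable_nearW (c ε : ℝ) : Measurable (nearW c ε) :=
  Measurable.ite measurableSet_Iic measurable_const measurable_const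

/-- The off-line mass at scale `ε`. -/
noncomputable def offE (A : Atlas N K) (J : Amb N → MN N) (m : Measure (Amb N × Amb N)) (c ε : ℝ) :
    ℝ :=
  ∫ p, ∫ q, nearW c ε (rS A (pr A p) (pr A q)) * A.offX J q.1.1 q.1.2 p.1.2 ∂mS A m ∂mS A m

theorem offF_nonneg (hJ : IsACS A J) (p q : TS A) : 0 ≤ A.offX J q.1.1 q.1.2 p.1.2 :=
  Atlas.offX_nonneg hJ q.2.2.1 _

theorem offE_nonneg (hJ : IsACS A J) {c ε : ℝ} (hε : 0 < ε) : 0 ≤ offE A J m c ε :=
  integral_nonneg fun p => integral_nonneg fun q =>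
    mul_nonneg (nearW_nonneg hε _) (offF_nonneg hJ p q)

theorem continuous_offF (hJ : IsACS A J) :
    Continuous fun z : TS A × TS A => A.offX J z.2.1.1 z.2.1.2 z.1.1.2 := by
  have h : Continuous fun z : TS A × TS A => (z.2, z.1.1.2) :=
    continuous_snd.prodMk (continuous_snd.comp (continuous_subtype_val.comp continuous_fst))
  have e : Continuous ((fun z : A.unitTan × Amb N => A.offX J z.1.1.1 z.1.1.2 z.2) ∘
      fun z : TS A × TS A => (z.2, z.1.1.2)) := (Atlas.offX_continuous hJ).comp h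
  simpa only [Function.comp_def] using e

theorem exists_offF_bound (hJ : IsACS A J) :
    ∃ F : ℝ, ∀ p q : TS A, A.offX J q.1.1 q.1.2 p.1.2 ≤ F := by
  have : CompactSpace (TS A) := isCompact_iff_compactSpace.1 A.isCompact_unitTan
  obtain ⟨F, hF⟩ := (isCompact_range (continuous_offF hJ)).bddAbove
  exact ⟨F, fun p q => hF ⟨(p, q), rfl⟩⟩

theorem measurable_dist_pr :
    Measurable fun z : TS A × TS A => rS A (pr A z.1) (pr A z.2) := by
  unfold rS
  exact (((measurable_subtype_coe.comp ((measurable_pr A).comp measurable_fst))).sub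
    (measurable_subtype_coe.comp ((measurable_pr A).comp measurable_snd))).norm

theorem exists_quad (hJ : IsACS A J) (hm : ObsX A J m) {c C : ℝ} (hc : 0 < c) :
    ∃ c₀ ε₁ K₁ : ℝ, 0 < c₀ ∧ 0 < ε₁ ∧ 0 ≤ K₁ ∧ ∀ ε G kf w (V : Amb N → MN N), 0 < ε → ε ≤ ε₁ →
      IsSmoothing A J c C ε G kf w → L2X A V → (∀ x, (V x)ᵀ = -V x) →
      A.n2 (fun x => inv11X J x (V x)) ≤ C * ε * A.n2 V →
      (∫ p, ∫ q, A.wedgeInt (fun x => kf x p) (fun x => kf x q) ∂m ∂m)
          + 2 * (∫ p, A.wedgeInt V (fun x => kf x p) ∂m) + A.wedgeInt V V = 0 →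
      ∀ ν, 0 ≤ ν → Est.GrowthFrom (mS A m) (rS A) (pr A) ε ν →
      A.n2 V ^ 2 + offE A J m c₀ ε ≤ K₁ * (ν * (mS A m).real univ
        + A.n2 V * Real.sqrt (ν * (mS A m).real univ)) := by
  have := hm.finite
  have := isFiniteMeasure_mS (A := A) hm.finite
  obtain ⟨D, AA, hG⟩ := exists_geom A
  obtain ⟨CW, hCW, hwb, hab, hsplit⟩ := exists_wedge_bound hJ
  obtain ⟨cb, -, hcb, -, -, -, -, -, hanti, h0, -⟩ := basicStmt A J hJ
  set C₁ := |C|
  have hC₁ : 0 ≤ C₁ := abs_nonneg C
  have hCC : C ≤ C₁ := le_abs_self C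
  have hA0 := hG.A_nonneg
  set T := (cb + CW) * C₁ ^ 2
  have hT : 0 ≤ T := by positivity
  set L := CW ^ 2 * (C₁ + C₁ ^ 2) * (128 * Real.sqrt AA)
  refine ⟨min c 1, min 1 (cb / (4 * (T + 1))), (9 * C₁ * 128 + 2 * L) / min (cb / 4) c,
    lt_min hc one_pos, by positivity, by positivity,
    fun ε G kf w V hε hεle hsm hV hskew hinv hid ν hν0 hν => ?_⟩
  set c₀ := min c 1
  set M := (mS A m).real univ
  set n := A.n2 V
  have hn : 0 ≤ n := Real.sqrt_nonneg _
  have hε1 : ε ≤ 1 := hεle.trans (min_le_left _ _)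
  have hπ := measurable_pr A
  -- sizes of the kernel
  have hk1 : ∀ x : XS A, ∀ p : TS A,
      A.sN x.1 (kf x.1 p.1) ≤ C₁ * Est.ker 3 ε (rS A x (pr A p)) := fun x p => by
    have h := Real.sqrt_le_sqrt (hsm.size x.1 x.2 p.1 p.2)
    rw [A.sqrt_sqX, Real.sqrt_sq_eq_abs, abs_mul, kern_eq, abs_of_nonneg (Est.ker_nonneg _ _ _)] at h
    exact h.trans (mul_le_mul_of_nonneg_left (Est.ker_mono (by norm_num) hε _) hC₁)
  have hk2 : ∀ x : XS A, ∀ p : TS A,
      A.sN x.1 (antiX J x.1 (kf x.1 p.1)) ≤ C₁ * ε * Est.ker 3 ε (rS A x (pr A p)) := fun x p => by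
    have h := Real.sqrt_le_sqrt (hsm.anti x.1 x.2 p.1 p.2)
    rw [A.sqrt_sqX, Real.sqrt_sq_eq_abs, abs_mul, kern_eq, abs_of_nonneg (Est.ker_nonneg _ _ _),
      abs_mul, abs_of_pos hε] at h
    exact h.trans (mul_le_mul_of_nonneg_left (Est.ker_mono (by norm_num) hε _) (by positivity))
  have hkB : ∀ x ∈ A.X, ∀ p ∈ A.unitTan, A.sN x (kf x p) ≤ C₁ * (1 / ε ^ 4) := fun x hx p hp =>
    (hk1 ⟨x, hx⟩ ⟨p, hp⟩).trans (mul_le_mul_of_nonneg_left (Est.ker_le 3 hε _) hC₁)
  -- the two parts of `V`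
  obtain ⟨hf1, hf2⟩ := memLp_parts hJ hV
  set f1 := fun y : XS A => A.sN y.1 (antiX J y.1 (V y.1)) with hf1d
  set f2 := fun y : XS A => A.sN y.1 (inv11X J y.1 (V y.1)) with hf2d
  have hf1n : Real.sqrt (∫ y, f1 y ^ 2 ∂volS A) ≤ CW * n :=
    sqrt_sq_parts (zero_le_one.trans hCW) (fun x hx M => (hab x hx M).1) hV
  have hf2n : Real.sqrt (∫ y, f2 y ^ 2 ∂volS A) ≤ C₁ * ε * n := by
    rw [← n2_eq fun x => inv11X J x (V x)]
    exact hinv.trans (by gcongr)
  -- the cross term
  have hX : |∫ p, A.wedgeInt V (fun x => kf x p) ∂m| ≤ L * n * Real.sqrt (ν * M) := by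
    rw [← int_mS hm.supp]
    simp only [Atlas.wedgeInt]
    simp only [← int_volS A]
    have hI := integrable_wedge (m := m) hJ hV hsm.cont hkB
    rw [← integral_integral_swap (f := fun (y : XS A) (p : TS A) =>
      A.wedgePt y.1 (V y.1) (kf y.1 p.1)) hI]
    set F := fun y : XS A => ∫ p, Est.ker 3 ε (rS A y (pr A p)) ∂mS A m
    have hFm : StronglyMeasurable F :=
      (hG.meas_ker hπ 3 ε).stronglyMeasurable.integral_prod_right
    have hF0 : ∀ y, 0 ≤ F y := fun y => integral_nonneg fun p => Est.ker_nonneg _ _ _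
    have hFb : ∀ y, ‖F y‖ ≤ 128 * ν / ε ^ 2 := fun y => by
      rw [Real.norm_eq_abs, abs_of_nonneg (hF0 y)]
      exact hG.ker_atoms hπ hε hν y
    have hpt : ∀ y : XS A, |∫ p, A.wedgePt y.1 (V y.1) (kf y.1 p.1) ∂mS A m|
        ≤ CW * C₁ * ε * (f1 y * F y) + CW * CW * C₁ * (f2 y * F y) := fun y => by
      refine abs_integral_le_integral_abs.trans ?_
      have e : CW * C₁ * ε * (f1 y * F y) + CW * CW * C₁ * (f2 y * F y)
          = ∫ p, (CW * C₁ * ε * f1 y + CW * CW * C₁ * f2 y) * Est.ker 3 ε (rS A y (pr A p))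
              ∂mS A m := by
        rw [integral_const_mul]; ring
      rw [e]
      refine integral_mono_of_nonneg (ae_of_all _ fun p => abs_nonneg _) (Integrable.const_mul ?_ _)
        (ae_of_all _ fun p => ?_)
      · exact Integrable.of_bound ((hG.meas_ker hπ 3 ε).comp measurable_prodMk_left).aestronglyMeasurable
          (1 / ε ^ 4) (ae_of_all _ fun p => by
            rw [Real.norm_eq_abs]
            exact (abs_of_nonneg (Est.ker_nonneg _ _ _)).trans_le (Est.ker_le 3 hε _))
      · show |A.wedgePt y.1 (V y.1) (kf y.1 p.1)| ≤ _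
        refine (hsplit y.1 y.2 _ _ (hskew _) (hsm.skew _ _)).trans ?_
        have a1 := A.sN_nonneg y.1 (antiX J y.1 (V y.1))
        have a2 := A.sN_nonneg y.1 (inv11X J y.1 (V y.1))
        calc CW * (f1 y * A.sN y.1 (antiX J y.1 (kf y.1 p.1)))
              + CW * (f2 y * A.sN y.1 (inv11X J y.1 (kf y.1 p.1)))
            ≤ CW * (f1 y * (C₁ * ε * Est.ker 3 ε (rS A y (pr A p))))
              + CW * (f2 y * (CW * (C₁ * Est.ker 3 ε (rS A y (pr A p))))) := by
              gcongr
              · exact hk2 y p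
              · exact (hab y.1 y.2 _).2.trans
                  (mul_le_mul_of_nonneg_left (hk1 y p) (zero_le_one.trans hCW))
          _ = _ := by ring
    have hF2 : MemLp F 2 (volS A) := MemLp.of_bound hFm.aestronglyMeasurable _ (ae_of_all _ hFb)
    have i1 : Integrable (fun y => f1 y * F y) (volS A) := hf1.integrable_mul hF2
    have i2 : Integrable (fun y => f2 y * F y) (volS A) := hf2.integrable_mul hF2
    refine abs_integral_le_integral_abs.trans ((integral_mono_of_nonneg
      (ae_of_all _ fun y => abs_nonneg _) ((i1.const_mul _).fun_add (i2.const_mul _))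
      (ae_of_all _ hpt)).trans ?_)
    rw [integral_add (i1.const_mul _) (i2.const_mul _), integral_const_mul, integral_const_mul]
    have hc1 := (le_abs_self _).trans (hG.cross hπ hε hν0 zero_le_one hν hf1
      hFm.aestronglyMeasurable (fun y => by rw [abs_of_nonneg (hF0 y), one_mul]) hf1n)
    have hc2 := (le_abs_self _).trans (hG.cross hπ hε hν0 zero_le_one hν hf2
      hFm.aestronglyMeasurable (fun y => by rw [abs_of_nonneg (hF0 y), one_mul]) hf2n)
    refine (add_le_add (mul_le_mul_of_nonneg_left hc1 (by positivity))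
      (mul_le_mul_of_nonneg_left hc2 (by positivity))).trans_eq ?_
    simp only [L, M]
    field_simp
  -- the pair term
  have hP : c * offE A J m c₀ ε - 9 * C₁ * 128 * ν * M
      ≤ ∫ p, ∫ q, A.wedgeInt (fun x => kf x p) (fun x => kf x q) ∂m ∂m := by
    rw [← int_mS₂ hm.supp]
    simp only [Atlas.wedgeInt]
    simp only [← int_volS A]
    have hmeas : Measurable fun u : (TS A × TS A) × XS A =>
        A.wedgePt u.2.1 (kf u.2.1 u.1.1.1) (kf u.2.1 u.1.2.1) := by
      refine measurable_wedgePt (measurable_subtype_coe.comp measurable_snd) (fun i k => ?_)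
        (fun i k => ?_)
      · exact (hsm.cont i k).measurable.comp
          (measurable_snd.prodMk (measurable_fst.comp measurable_fst))
      · exact (hsm.cont i k).measurable.comp
          (measurable_snd.prodMk (measurable_snd.comp measurable_fst))
    set P := fun z : TS A × TS A =>
      ∫ y : XS A, A.wedgePt y.1 (kf y.1 z.1.1) (kf y.1 z.2.1) ∂volS A
    have hPm : StronglyMeasurable P :=
      StronglyMeasurable.integral_prod_right (f := fun (z : TS A × TS A) (y : XS A) =>
        A.wedgePt y.1 (kf y.1 z.1.1) (kf y.1 z.2.1)) hmeas.stronglyMeasurable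
    have hPb : ∀ z, ‖P z‖ ≤ CW * (C₁ * (1 / ε ^ 4)) ^ 2 * (volS A).real univ := fun z =>
      norm_integral_le_of_norm_le_const (ae_of_all _ fun y => by
        rw [Real.norm_eq_abs]
        refine (hwb y.1 y.2 _ _).trans ?_
        have := hkB y.1 y.2 _ z.1.2
        have := hkB y.1 y.2 _ z.2.2
        have := A.sN_nonneg y.1 (kf y.1 z.1.1)
        have := A.sN_nonneg y.1 (kf y.1 z.2.1)
        calc CW * A.sN y.1 (kf y.1 z.1.1) * A.sN y.1 (kf y.1 z.2.1)
            ≤ CW * (C₁ * (1 / ε ^ 4)) * (C₁ * (1 / ε ^ 4)) := by gcongr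
          _ = _ := by ring)
    have iP : Integrable P ((mS A m).prod (mS A m)) :=
      Integrable.of_bound hPm.aestronglyMeasurable _ (ae_of_all _ hPb)
    obtain ⟨F₀, hF₀⟩ := exists_offF_bound hJ
    set W := fun z : TS A × TS A =>
      nearW c₀ ε (rS A (pr A z.1) (pr A z.2)) * A.offX J z.2.1.1 z.2.1.2 z.1.1.2
    have iW : Integrable W ((mS A m).prod (mS A m)) := by
      refine Integrable.of_bound ((((measurable_nearW c₀ ε).comp measurable_dist_pr)).mul
        (continuous_offF hJ).measurable).aestronglyMeasurable (1 / ε ^ 4 * F₀)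
        (ae_of_all _ fun z => ?_)
      rw [Real.norm_eq_abs, abs_of_nonneg (mul_nonneg (nearW_nonneg hε _) (offF_nonneg hJ _ _))]
      exact mul_le_mul (nearW_le hε _) (hF₀ _ _) (offF_nonneg hJ _ _) (by positivity)
    set E := fun z : TS A × TS A => ε ^ 2 * Est.ker 3 ε (rS A (pr A z.1) (pr A z.2))
    have iE : Integrable E ((mS A m).prod (mS A m)) := by
      refine Integrable.of_bound (Measurable.aestronglyMeasurable ?_) (ε ^ 2 * (1 / ε ^ 4))
        (ae_of_all _ fun z => ?_)
      · exact (((((measurable_dist_pr (A := A)).pow_const 2).div_const (ε ^ 2)).const_add 1).pow_const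
          3).const_div (1 / ε ^ 4) |>.const_mul _
      · rw [Real.norm_eq_abs, abs_of_nonneg (mul_nonneg (sq_nonneg _) (Est.ker_nonneg _ _ _))]
        exact mul_le_mul_of_nonneg_left (Est.ker_le 3 hε _) (sq_nonneg _)
    have hpt : ∀ z : TS A × TS A, c * W z - 9 * C₁ * E z ≤ P z := fun z => by
      obtain ⟨h1, h2⟩ := hsm.pair_low z.1.1 z.1.2 z.2.1 z.2.2
      simp only [Atlas.wedgeInt] at h1 h2
      simp only [← int_volS A] at h1 h2
      set d := rS A (pr A z.1) (pr A z.2) with hd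
      have hE0 : 0 ≤ ε ^ 2 * Est.ker 3 ε d := mul_nonneg (sq_nonneg _) (Est.ker_nonneg _ _ _)
      have hE0' : 0 ≤ C₁ * (ε ^ 2 * Est.ker 3 ε d) := mul_nonneg hC₁ hE0
      simp only [W, E, nearW, ← hd]
      split_ifs with hnear
      · have h3 := h2 (hnear.trans (mul_le_mul_of_nonneg_right (min_le_left _ _) hε.le))
        have hd1 : d ≤ ε := hnear.trans (mul_le_of_le_one_left hε.le (min_le_right _ _))
        have h4 : C / ε ^ 2 ≤ 8 * C₁ * (ε ^ 2 * Est.ker 3 ε d) := by
          refine (div_le_div_of_nonneg_right hCC (sq_nonneg ε)).trans ?_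
          have h5 : 1 / ε ^ 4 / 8 ≤ Est.ker 3 ε d := by
            refine div_le_div_of_nonneg_left (by positivity) (by positivity) ?_
            have hd0 : 0 ≤ d := norm_nonneg _
            have : d ^ 2 / ε ^ 2 ≤ 1 :=
              (div_le_one (by positivity)).2 (pow_le_pow_left₀ hd0 hd1 2)
            calc (1 + d ^ 2 / ε ^ 2) ^ 3 ≤ 2 ^ 3 :=
                  pow_le_pow_left₀ (by positivity) (by linarith) 3
              _ = 8 := by norm_num
          calc C₁ / ε ^ 2 = 8 * C₁ * (ε ^ 2 * (1 / ε ^ 4 / 8)) := by field_simp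
            _ ≤ _ := by gcongr
        refine le_trans ?_ h3
        linarith only [h4, hE0', show c * (1 / ε ^ 4 * A.offX J z.2.1.1 z.2.1.2 z.1.1.2)
          = c / ε ^ 4 * A.offX J z.2.1.1 z.2.1.2 z.1.1.2 by ring]
      · rw [zero_mul, mul_zero, zero_sub]
        refine le_trans (neg_le_neg ?_) h1
        have h6 : C * ε ^ 2 * kern ε d ≤ C₁ * ε ^ 2 * Est.ker 3 ε d :=
          mul_le_mul (mul_le_mul_of_nonneg_right hCC (sq_nonneg _)) (kern_le_three hε _)
            (Est.ker_nonneg 5 ε d) (by positivity)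
        refine le_trans h6 ?_
        linarith only [hE0']
    have h := integral_mono ((iW.const_mul c).sub (iE.const_mul (9 * C₁))) iP hpt
    simp only [Pi.sub_apply] at h
    rw [integral_sub (iW.const_mul c) (iE.const_mul (9 * C₁)), integral_const_mul, integral_const_mul,
      integral_prod _ iP, integral_prod _ iW, integral_prod _ iE] at h
    refine le_trans ?_ h
    have hpb := mul_le_mul_of_nonneg_left (hG.pair_bound hπ hε hν)
      (show 0 ≤ 9 * C₁ by positivity)
    refine sub_le_sub (le_of_eq rfl) (hpb.trans_eq ?_)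
    ring
  -- the square of `V`
  have hS : cb / 2 * n ^ 2 - T * ε ^ 2 * n ^ 2 ≤ A.wedgeInt V V := by
    rw [Atlas.wedgeInt, ← int_volS A fun x => A.wedgePt x (V x) (V x)]
    have i1 := hf1.integrable_sq
    have i2 := hf2.integrable_sq
    have i0 := (integrable_sN hV).integrable_sq
    have hpt : ∀ y : XS A, cb / 2 * A.sN y.1 (V y.1) ^ 2 - (cb + CW) * f2 y ^ 2
        ≤ A.wedgePt y.1 (V y.1) (V y.1) := fun y => by
      rw [Atlas.wedgePt_split h0 y.2 (hskew _) (hskew _)]
      have h1 := hanti y.1 y.2 (V y.1) (hskew _)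
      rw [← A.sq_sN] at h1
      have h2 := (abs_le.1 (hwb y.1 y.2 (inv11X J y.1 (V y.1)) (inv11X J y.1 (V y.1)))).1
      have h3 : A.sN y.1 (V y.1) ≤ f1 y + f2 y := by
        refine le_of_eq_of_le ?_ ((A.sN_add_le y.1 _ _).trans_eq (add_comm _ _))
        rw [inv_add_anti]
      have h4 : A.sN y.1 (V y.1) ^ 2 ≤ 2 * (f1 y ^ 2 + f2 y ^ 2) :=
        (pow_le_pow_left₀ (A.sN_nonneg _ _) h3 2).trans add_sq_le
      have h5 := mul_le_mul_of_nonneg_left h4 (show 0 ≤ cb / 2 by positivity)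
      simp only [hf1d, hf2d] at h5 ⊢
      linarith only [h1, h2, h5]
    have h := integral_mono ((i0.const_mul (cb / 2)).sub (i2.const_mul (cb + CW)))
      (integrable_self hJ hV) hpt
    simp only [Pi.sub_apply] at h
    rw [integral_sub (i0.const_mul _) (i2.const_mul _), integral_const_mul, integral_const_mul] at h
    refine le_trans ?_ h
    have e1 : ∫ y : XS A, A.sN y.1 (V y.1) ^ 2 ∂volS A = n ^ 2 := by
      simp only [n]
      rw [n2_eq, Real.sq_sqrt (integral_nonneg fun y => sq_nonneg _)]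
    have e2 : ∫ y, f2 y ^ 2 ∂volS A ≤ (C₁ * ε * n) ^ 2 := by
      have := pow_le_pow_left₀ (Real.sqrt_nonneg _) hf2n 2
      rwa [Real.sq_sqrt (integral_nonneg fun y => sq_nonneg _)] at this
    rw [e1]
    refine sub_le_sub le_rfl ((mul_le_mul_of_nonneg_left e2 (by positivity)).trans_eq ?_)
    simp only [T]; ring
  -- conclusion
  have hTε : T * ε ^ 2 ≤ cb / 4 := by
    have h1 : ε * (4 * (T + 1)) ≤ cb :=
      (le_div_iff₀ (by positivity)).1 (hεle.trans (min_le_right _ _))
    have h2 : T * ε ^ 2 ≤ (T + 1) * ε := by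
      rw [pow_two, ← mul_assoc]
      exact (mul_le_of_le_one_right (by positivity) hε1).trans
        (mul_le_mul_of_nonneg_right (by linarith only) hε.le)
    linarith only [h1, h2]
  have hX' := (abs_le.1 hX).1
  set Y := ν * M + n * Real.sqrt (ν * M)
  have hM0 : 0 ≤ ν * M := mul_nonneg hν0 measureReal_nonneg
  have hmain : cb / 4 * n ^ 2 + c * offE A J m c₀ ε ≤ (9 * C₁ * 128 + 2 * L) * Y := by
    have h1 := mul_le_mul_of_nonneg_right hTε (sq_nonneg n)
    have h2 : 0 ≤ 9 * C₁ * 128 * (n * Real.sqrt (ν * M)) := by positivity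
    have h3 : 0 ≤ 2 * L * (ν * M) := by positivity
    simp only [Y]
    linarith only [hid, hP, hX', hS, h1, h2, h3]
  rw [div_mul_eq_mul_div, le_div_iff₀ (lt_min (by positivity) hc)]
  refine le_trans ?_ hmain
  rw [add_mul, mul_comm (n ^ 2), mul_comm (offE A J m c₀ ε)]
  exact add_le_add (mul_le_mul_of_nonneg_right (min_le_left _ _) (sq_nonneg n))
    (mul_le_mul_of_nonneg_right (min_le_right _ _) (offE_nonneg hJ hε))

end Vale.Agent.P204.General.Apriori
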