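import Mathlib
import Vale.Agent.P204.General.Apriori.Pointwise
import Vale.Agent.P204.General.Apriori.Quad

/-!
# P204 module G: the test inequality
-/

open MeasureTheory Matrix Filter Set
open scoped ContDiff Topology

namespace Vale.Agent.P204.General.Apriori

open Vale.Agent.P204.Torus

variable {N K : ℕ} {A : Atlas N K} {J : Amb N → MN N} {m : Measure (Amb N × Amb N)}

theorem test_aux_weight {ε d c C : ℝ} (hε : 0 < ε) (hd0 : 0 ≤ d) (hd : d ≤ ε) (hc : 0 ≤ c)
    (hC : 16 * c ≤ C) : c / ε ^ 4 ≤ C * Est.ker 4 ε d := by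
  have h1 : 1 / ε ^ 4 / 16 ≤ Est.ker 4 ε d := by
    refine div_le_div_of_nonneg_left (by positivity) (by positivity) ?_
    have : d ^ 2 / ε ^ 2 ≤ 1 := (div_le_one (by positivity)).2 (pow_le_pow_left₀ hd0 hd 2)
    calc (1 + d ^ 2 / ε ^ 2) ^ 4 ≤ 2 ^ 4 := pow_le_pow_left₀ (by positivity) (by linarith) 4
      _ = 16 := by norm_num
  calc c / ε ^ 4 = 16 * c * (1 / ε ^ 4 / 16) := by ring
    _ ≤ C * Est.ker 4 ε d := mul_le_mul hC h1 (by positivity) (le_trans (by linarith) hC)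

/-- Pairing a square integrable field with the test form. -/
theorem exists_pot_pair (hJ : IsACS A J) (hT : TestStmt) : ∃ K₁ : ℝ, 0 ≤ K₁ ∧
    ∀ (V : Amb N → MN N) (η : ℝ), L2X A V → (∀ x, (V x)ᵀ = -V x) →
      A.n2 (fun x => inv11X J x (V x)) ≤ η → ∀ s, 0 < s → s ≤ 1 → ∀ x ∈ A.X,
      |A.wedgeInt V (A.ddPot J s x)| ≤ K₁ * (A.n2 V + η / s) := by
  obtain ⟨ct, Ct, -, htest⟩ := hT A J hJ
  obtain ⟨D, AA, hG⟩ := exists_geom A
  obtain ⟨CW, hCW, -, hab, hsplit⟩ := exists_wedge_bound hJ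
  have hA0 := hG.A_nonneg
  set P₀ := (volS A).real univ + 32 * AA with hP₀
  refine ⟨CW * |Ct| * (CW + CW) * Real.sqrt P₀, by positivity,
    fun V η hV hskew hη s hs hs1 x hx => ?_⟩
  have hη0 : 0 ≤ η := (Real.sqrt_nonneg _).trans hη
  have hn : 0 ≤ A.n2 V := Real.sqrt_nonneg _
  obtain ⟨hclosed, -, -, hcont, -, -, -, hpt⟩ := htest s hs hs1
  rw [Atlas.wedgeInt, ← int_volS A fun y => A.wedgePt y (V y) (A.ddPot J s x y)]
  set xS : XS A := ⟨x, hx⟩
  set R := fun y : XS A => Real.sqrt (rS A xS y ^ 2 + s ^ 2) with hR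
  have hRs : ∀ y, s ≤ R y := fun y => Real.le_sqrt_of_sq_le (by nlinarith [sq_nonneg (rS A xS y)])
  have hR0 : ∀ y, 0 < R y := fun y => hs.trans_le (hRs y)
  have hRm : Measurable R := by have := hG.meas_left xS; fun_prop
  obtain ⟨hf1, hf2⟩ := memLp_parts hJ hV
  set f1 := fun y : XS A => A.sN y.1 (antiX J y.1 (V y.1))
  set f2 := fun y : XS A => A.sN y.1 (inv11X J y.1 (V y.1))
  set g1 := fun y => 1 / R y
  set g2 := fun y => 1 / R y ^ 2
  have hg1 : MemLp g1 2 (volS A) := MemLp.of_bound (hRm.const_div 1).aestronglyMeasurable (1 / s)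
    (ae_of_all _ fun y => by
      rw [Real.norm_eq_abs, abs_of_nonneg (one_div_nonneg.2 (hR0 y).le)]
      exact one_div_le_one_div_of_le hs (hRs y))
  have hg2 : MemLp g2 2 (volS A) := MemLp.of_bound ((hRm.pow_const 2).const_div 1).aestronglyMeasurable
    (1 / s ^ 2) (ae_of_all _ fun y => by
      rw [Real.norm_eq_abs, abs_of_nonneg (one_div_nonneg.2 (sq_nonneg _))]
      exact one_div_le_one_div_of_le (by positivity) (pow_le_pow_left₀ hs.le (hRs y) 2))
  have hpw : ∀ y : XS A, |A.wedgePt y.1 (V y.1) (A.ddPot J s x y.1)|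
      ≤ CW * |Ct| * (f1 y * g1 y) + CW * CW * |Ct| * (f2 y * g2 y) := fun y => by
    refine (hsplit y.1 y.2 _ _ (hskew _) ((hclosed x hx).skew _)).trans ?_
    obtain ⟨-, -, hsize, hant, -, -⟩ := hpt x hx y.1 y.2
    rw [A.sqrt_sqX] at hsize hant
    have a1 := A.sN_nonneg y.1 (antiX J y.1 (V y.1))
    have a2 := A.sN_nonneg y.1 (inv11X J y.1 (V y.1))
    have h1 : A.sN y.1 (antiX J y.1 (A.ddPot J s x y.1)) ≤ |Ct| * g1 y :=
      hant.trans ((div_le_div_of_nonneg_right (le_abs_self _) (hR0 y).le).trans_eq (mul_one_div _ _).symm)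
    have h2 : A.sN y.1 (inv11X J y.1 (A.ddPot J s x y.1)) ≤ CW * (|Ct| * g2 y) :=
      (hab y.1 y.2 _).2.trans (mul_le_mul_of_nonneg_left (hsize.trans
        ((div_le_div_of_nonneg_right (le_abs_self _) (sq_nonneg _)).trans_eq (mul_one_div _ _).symm))
        (zero_le_one.trans hCW))
    calc CW * (f1 y * A.sN y.1 (antiX J y.1 (A.ddPot J s x y.1)))
          + CW * (f2 y * A.sN y.1 (inv11X J y.1 (A.ddPot J s x y.1)))
        ≤ CW * (f1 y * (|Ct| * g1 y)) + CW * (f2 y * (CW * (|Ct| * g2 y))) := by gcongr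
      _ = _ := by ring
  have i1 : Integrable (fun y => f1 y * g1 y) (volS A) := hf1.integrable_mul hg1
  have i2 : Integrable (fun y => f2 y * g2 y) (volS A) := hf2.integrable_mul hg2
  refine abs_integral_le_integral_abs.trans ((integral_mono_of_nonneg
    (ae_of_all _ fun y => abs_nonneg _) ((i1.const_mul _).fun_add (i2.const_mul _))
    (ae_of_all _ hpw)).trans ?_)
  rw [integral_add (i1.const_mul _) (i2.const_mul _), integral_const_mul, integral_const_mul]
  have b1 : Real.sqrt (∫ y, f1 y ^ 2 ∂volS A) ≤ CW * A.n2 V :=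
    sqrt_sq_parts (zero_le_one.trans hCW) (fun x hx M => (hab x hx M).1) hV
  have b2 : Real.sqrt (∫ y, f2 y ^ 2 ∂volS A) ≤ η := by
    rw [← n2_eq fun x => inv11X J x (V x)]; exact hη
  have c1 : Real.sqrt (∫ y, g1 y ^ 2 ∂volS A) ≤ Real.sqrt P₀ := by
    refine Real.sqrt_le_sqrt ?_
    simp only [g1, div_pow, one_pow]
    exact hG.pot_vol hs xS
  have c2 : Real.sqrt (∫ y, g2 y ^ 2 ∂volS A) ≤ Real.sqrt P₀ / s := by
    refine (Real.sqrt_le_sqrt (y := P₀ / s ^ 2) ?_).trans_eq ?_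
    · simp only [g2, div_pow, one_pow, ← pow_mul]
      exact hG.pot_vol_four hs xS
    · rw [Real.sqrt_div' _ (sq_nonneg s), Real.sqrt_sq hs.le]
  have d1 := ((le_abs_self _).trans (Est.abs_integral_mul_le hf1 hg1)).trans
    (mul_le_mul b1 c1 (Real.sqrt_nonneg _) (by positivity))
  have d2 := ((le_abs_self _).trans (Est.abs_integral_mul_le hf2 hg2)).trans
    (mul_le_mul b2 c2 (Real.sqrt_nonneg _) hη0)
  refine (add_le_add (mul_le_mul_of_nonneg_left d1 (by positivity))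
    (mul_le_mul_of_nonneg_left d2 (by positivity))).trans ?_
  have : 0 ≤ CW * |Ct| * CW * Real.sqrt P₀ * (A.n2 V + η / s) := by positivity
  calc CW * |Ct| * (CW * A.n2 V * Real.sqrt P₀) + CW * CW * |Ct| * (η * (Real.sqrt P₀ / s))
      = CW * |Ct| * CW * Real.sqrt P₀ * (A.n2 V + η / s) := by ring
    _ ≤ _ := by linarith only [this]

theorem exists_test (hJ : IsACS A J) (hT : TestStmt) (hm : ObsX A J m)
    {R : (Amb N → MN N) → ℝ} {C₀ : ℝ} (hR : IsExtX A J m R C₀) {c C : ℝ} (hc : 0 < c) :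
    ∃ ε₁ K₁ : ℝ, 0 < ε₁ ∧ 0 ≤ K₁ ∧ ∀ ε s (x : XS A) G kf w (V : Amb N → MN N), 0 < ε → ε ≤ s →
      s ≤ ε₁ → IsSmoothing A J c C ε G kf w → L2X A V → (∀ x, (V x)ᵀ = -V x) →
      A.n2 (fun x => inv11X J x (V x)) ≤ C * ε * A.n2 V →
      (∀ a, IsTestX A a → R (G a) = A.wedgeInt V a) →
      (mS A m).real {p | rS A x (pr A p) ≤ s} ≤ K₁ * s ^ 2
        * (A.n2 V + ∫ p, 1 / Real.sqrt (rS A x (pr A p) ^ 2 + s ^ 2) ∂mS A m) := by
  have := hm.finite
  have := isFiniteMeasure_mS (A := A) hm.finite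
  obtain ⟨D, AA, hG⟩ := exists_geom A
  obtain ⟨cl, Cl, δ, hcl, hCl, hδ, hline⟩ := exists_line_lower hJ hT
  obtain ⟨ct, Ct₀, -, htest⟩ := hT A J hJ
  obtain ⟨KP, hKP, hpot⟩ := exists_pot_pair hJ hT
  obtain ⟨CW, hCW, hwb, -, -⟩ := exists_wedge_bound hJ
  obtain ⟨cv, hcv, hvol⟩ := Atlas.vol_lower A inferInstance
  set Ct := |Ct₀|
  set C₁ := |C|
  have hC₁ : 0 ≤ C₁ := abs_nonneg C
  have hA0 := hG.A_nonneg
  set c₀ := min c 1 with hc₀d
  have hc₀ : 0 < c₀ := lt_min hc one_pos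
  set cT := min cl (c * cv * c₀ ^ 4) with hcTd
  have hcT : 0 < cT := lt_min hcl (by positivity)
  set CT := max (C₁ * (2 * Cl + Ct)) (16 * c) with hCTd
  have hCT : 0 ≤ CT := le_max_of_le_right (by linarith)
  set Kc := (4 * (1 : ℝ) ^ 2 * (2 + CT * 128 * AA / cT)) ^ 2 / (cT * cT) with hKc
  have hKc0 : 0 ≤ Kc := by positivity
  refine ⟨min δ 1, Kc * (KP * (1 + C₁) + CT * (768 * 1 * AA)), lt_min hδ one_pos,
    by positivity, fun ε s x G kf w V hε hεs hsle hsm hV hskew hinv hrep => ?_⟩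
  have hs : 0 < s := hε.trans_le hεs
  have hs1 : s ≤ 1 := hsle.trans (min_le_right _ _)
  have hsδ : s ≤ δ := hsle.trans (min_le_left _ _)
  have hπ := measurable_pr A
  set n := A.n2 V
  have hn : 0 ≤ n := Real.sqrt_nonneg _
  obtain ⟨hclosed, -, -, hcont, -, -, -, hpt⟩ := htest s hs hs1
  set a := A.ddPot J s x.1 with ha
  have hac : IsClosedX A a := hclosed x.1 x.2
  -- the density
  set F : TS A → ℝ := fun p => p.1.2 ⬝ᵥ (G a p.1.1 *ᵥ (J p.1.1 *ᵥ p.1.2)) with hFd
  have hFW : ∀ p : TS A, F p = ∫ y : XS A, A.wedgePt y.1 (kf y.1 p.1) (a y.1) ∂volS A := fun p => by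
    rw [int_volS A fun y => A.wedgePt y (kf y p.1) (a y)]
    exact hsm.transpose a hac.toIsTestX p.1 p.2
  have hkB : ∀ y : XS A, ∀ p : TS A,
      A.sN y.1 (kf y.1 p.1) ≤ C₁ * (1 / ε ^ 4) := fun y p => by
    have h := Real.sqrt_le_sqrt (hsm.size y.1 y.2 p.1 p.2)
    rw [A.sqrt_sqX, Real.sqrt_sq_eq_abs, abs_mul, kern_eq, abs_of_nonneg (Est.ker_nonneg _ _ _)] at h
    exact h.trans (mul_le_mul_of_nonneg_left (Est.ker_le 5 hε _) hC₁)
  have hsa : ∀ y : XS A, A.sN y.1 (a y.1) ≤ Ct / rsX s x.1 y.1 ^ 2 := fun y => by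
    obtain ⟨-, -, hsize, -⟩ := hpt x.1 x.2 y.1 y.2
    rw [A.sqrt_sqX] at hsize
    exact hsize.trans (div_le_div_of_nonneg_right (le_abs_self _) (sq_nonneg _))
  have hab0 : ∀ y : XS A, A.sN y.1 (a y.1) ≤ Ct / s ^ 2 := fun y =>
    (hsa y).trans (div_le_div_of_nonneg_left (abs_nonneg _) (by positivity)
      (pow_le_pow_left₀ hs.le (le_rsX s x.1 y.1) 2))
  have hmeasZ : Measurable fun z : TS A × XS A => A.wedgePt z.2.1 (kf z.2.1 z.1.1) (a z.2.1) := by
    refine measurable_wedgePt (measurable_subtype_coe.comp measurable_snd)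
      (fun i k => (hsm.cont i k).measurable.comp (measurable_snd.prodMk measurable_fst))
      (fun i k => ?_)
    exact (hcont i k).measurable.comp ((measurable_const (a := x)).prodMk measurable_snd)
  have hZb : ∀ (p : TS A) (y : XS A),
      ‖A.wedgePt y.1 (kf y.1 p.1) (a y.1)‖ ≤ CW * (C₁ * (1 / ε ^ 4)) * (Ct / s ^ 2) := fun p y => by
    rw [Real.norm_eq_abs]
    refine (hwb y.1 y.2 _ _).trans ?_
    have := hkB y p
    have := hab0 y
    have := A.sN_nonneg y.1 (kf y.1 p.1)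
    have := A.sN_nonneg y.1 (a y.1)
    gcongr
  have hFi : Integrable F (mS A m) := by
    have hm' : StronglyMeasurable fun p : TS A =>
        ∫ y : XS A, A.wedgePt y.1 (kf y.1 p.1) (a y.1) ∂volS A :=
      StronglyMeasurable.integral_prod_right (f := fun (p : TS A) (y : XS A) =>
        A.wedgePt y.1 (kf y.1 p.1) (a y.1)) hmeasZ.stronglyMeasurable
    refine (Integrable.of_bound hm'.aestronglyMeasurable _
      (ae_of_all _ fun p => norm_integral_le_of_norm_le_const (ae_of_all _ (hZb p)))).congr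
      (ae_of_all _ fun p => (hFW p).symm)
  have hFN : ∫ p, F p ∂mS A m ≤ KP * (1 + C₁) * n := by
    have e : ∫ p, F p ∂mS A m = -A.wedgeInt V a := by
      have h := hR.kills (G a) (hsm.closed a hac)
      rw [hrep a hac.toIsTestX, tcurX] at h
      rw [int_mS hm.supp fun p => p.2 ⬝ᵥ (G a p.1 *ᵥ (J p.1 *ᵥ p.2))]
      linarith only [h]
    rw [e]
    refine (neg_le_abs _).trans ((hpot V (C₁ * ε * n) hV hskew
      (hinv.trans (by gcongr; exact le_abs_self C)) s hs hs1 x.1 x.2).trans ?_)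
    have h1 : C₁ * ε * n / s ≤ C₁ * n := by
      rw [div_le_iff₀ hs]
      calc C₁ * ε * n ≤ C₁ * s * n := by gcongr
        _ = _ := by ring
    calc KP * (A.n2 V + C₁ * ε * n / s) ≤ KP * (n + C₁ * n) := by gcongr
      _ = _ := by ring
  -- the weight
  set w' : TS A → XS A → ℝ := fun p y =>
    if rS A (pr A p) y ≤ c₀ * ε then c / ε ^ 4 else 0 with hw'
  have hw'm : ∀ p, Measurable (w' p) := fun p =>
    Measurable.ite (measurableSet_le (hG.meas_left _) measurable_const) measurable_const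
      measurable_const
  have hw'0 : ∀ p y, 0 ≤ w' p y := fun p y => by
    simp only [hw']; split_ifs <;> positivity
  have hw'le : ∀ p y, w' p y ≤ CT * Est.ker 4 ε (rS A (pr A p) y) := fun p y => by
    simp only [hw']; split_ifs with h
    · exact test_aux_weight hε (norm_nonneg _)
        (h.trans (mul_le_of_le_one_left hε.le (min_le_right _ _))) hc.le (le_max_right _ _)
    · exact mul_nonneg hCT (Est.ker_nonneg _ _ _)
  have hmass : ∀ p, cT ≤ ∫ y, w' p y ∂volS A := fun p => by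
    have hB : MeasurableSet {y : XS A | rS A (pr A p) y ≤ c₀ * ε} :=
      measurableSet_le (hG.meas_left _) measurable_const
    have e : ∫ y, w' p y ∂volS A
        = (volS A).real {y : XS A | rS A (pr A p) y ≤ c₀ * ε} * (c / ε ^ 4) := by
      rw [← smul_eq_mul, ← integral_indicator_const (c / ε ^ 4) hB]
      refine integral_congr_ae (ae_of_all _ fun y => ?_)
      simp [hw', Set.indicator_apply]
    have hv : cv * (c₀ * ε) ^ 4 ≤ (volS A).real {y : XS A | rS A (pr A p) y ≤ c₀ * ε} :=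
      (hvol p.1.1 p.2.1 (c₀ * ε) (by positivity)
        ((mul_le_of_le_one_left hε.le (min_le_right _ _)).trans (hεs.trans hs1))).trans
        (volS_real A {z | ‖p.1.1 - z‖ ≤ c₀ * ε}).ge
    rw [e]
    refine (min_le_right _ _).trans ((le_of_eq ?_).trans
      (mul_le_mul_of_nonneg_right hv (by positivity)))
    field_simp
  have hlow : ∀ p, cT * (∫ y, w' p y * (s ^ 2 / Real.sqrt (rS A x y ^ 2 + s ^ 2) ^ 4) ∂volS A)
      - CT * (∫ y, Est.ker 4 ε (rS A (pr A p) y) / Real.sqrt (rS A x y ^ 2 + s ^ 2) ∂volS A)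
        ≤ F p := fun p => by
    have hRm : Measurable fun y => Real.sqrt (rS A x y ^ 2 + s ^ 2) := by
      have := hG.meas_left x; fun_prop
    have hRs : ∀ y : XS A, s ≤ Real.sqrt (rS A x y ^ 2 + s ^ 2) := fun y => le_rsX s x.1 y.1
    have iA : Integrable (fun y => w' p y * (s ^ 2 / Real.sqrt (rS A x y ^ 2 + s ^ 2) ^ 4))
        (volS A) := by
      refine Integrable.of_bound ((hw'm p).mul ((hRm.pow_const 4).const_div _)).aestronglyMeasurable
        (CT * (1 / ε ^ 4) * (s ^ 2 / s ^ 4)) (ae_of_all _ fun y => ?_)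
      rw [Real.norm_eq_abs, abs_of_nonneg (mul_nonneg (hw'0 p y) (by positivity))]
      refine mul_le_mul ((hw'le p y).trans (mul_le_mul_of_nonneg_left (Est.ker_le 4 hε _) hCT))
        (div_le_div_of_nonneg_left (sq_nonneg s) (by positivity)
          (pow_le_pow_left₀ hs.le (hRs y) 4)) (by positivity) (by positivity)
    have hkm : Measurable fun y => Est.ker 4 ε (rS A (pr A p) y) := by
      have := hG.meas_left (pr A p); unfold Est.ker; fun_prop
    have iB : Integrable (fun y => Est.ker 4 ε (rS A (pr A p) y) /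
        Real.sqrt (rS A x y ^ 2 + s ^ 2)) (volS A) := by
      refine Integrable.of_bound (hkm.div hRm).aestronglyMeasurable (1 / ε ^ 4 / s)
        (ae_of_all _ fun y => ?_)
      rw [Real.norm_eq_abs,
        abs_of_nonneg (div_nonneg (Est.ker_nonneg _ _ _) (hs.le.trans (hRs y)))]
      exact div_le_div₀ (by positivity) (Est.ker_le 4 hε _) hs (hRs y)
    have iF : Integrable (fun y : XS A => A.wedgePt y.1 (kf y.1 p.1) (a y.1)) (volS A) :=
      Integrable.of_bound (hmeasZ.comp measurable_prodMk_left).aestronglyMeasurable _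
        (ae_of_all _ (hZb p))
    rw [hFW p, ← integral_const_mul, ← integral_const_mul,
      ← integral_sub (iA.const_mul _) (iB.const_mul _)]
    refine integral_mono ((iA.const_mul _).sub (iB.const_mul _)) iF fun y => ?_
    obtain ⟨hw0, hwle, hwlow⟩ := hsm.weight y.1 y.2 p.1.1 p.2.1
    obtain ⟨hl1, hl2⟩ := hline s hs hs1 x.1 x.2 y.1 y.2 p
    have hmain := (abs_le.1 (hsm.main y.1 y.2 p.1 p.2 (a y.1) (hac.skew y.1))).1
    rw [A.sqrt_sqX] at hmain
    have hr : 0 < rsX s x.1 y.1 := rsX_pos hs _ _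
    have hrs : ε ≤ rsX s x.1 y.1 := hεs.trans (le_rsX s x.1 y.1)
    set r := rsX s x.1 y.1 with hrd
    set d := ‖y.1 - p.1.1‖ with hd
    set L := lineVal A J (A.ddPot J s x.1 y.1) y.1 p.1 with hL
    set W := w y.1 p.1.1
    have e1 : rS A (pr A p) y = d := norm_sub_rev _ _
    show cT * (w' p y * (s ^ 2 / r ^ 4)) - CT * (Est.ker 4 ε (rS A (pr A p) y) / r)
      ≤ A.wedgePt y.1 (kf y.1 p.1) (a y.1)
    rw [e1]
    have hmain' : W * L - C₁ * ε ^ 2 * Est.ker 5 ε d * (Ct / r ^ 2)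
        ≤ A.wedgePt y.1 (kf y.1 p.1) (a y.1) := by
      have h3 : C * ε ^ 2 * kern ε d * A.sN y.1 (a y.1)
          ≤ C₁ * ε ^ 2 * Est.ker 5 ε d * (Ct / r ^ 2) := by
        rw [kern_eq]
        have := Est.ker_nonneg 5 ε d
        exact mul_le_mul (by gcongr; exact le_abs_self C) (hsa y) (A.sN_nonneg _ _) (by positivity)
      simp only [L, lineVal, W] at hmain ⊢
      linarith only [hmain, h3]
    have hW : W ≤ C₁ * Est.ker 5 ε d :=
      hwle.trans (mul_le_mul_of_nonneg_right (le_abs_self C) (Est.ker_nonneg 5 ε d))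
    -- all errors are a multiple of `ker₄ / r`
    have hk4 := Est.ker_nonneg 4 ε d
    have hk45 : Est.ker 5 ε d ≤ Est.ker 4 ε d := Est.ker_mono (by norm_num) hε d
    have hk45' := Est.ker_mul_le 4 hε (t := d)
    have hεr : ε / r ^ 2 ≤ 1 / r := by
      rw [div_le_div_iff₀ (by positivity) hr, one_mul, pow_two]
      exact mul_le_mul_of_nonneg_right hrs hr.le
    have he1 : Est.ker 5 ε d * (1 / r + d / r ^ 2) ≤ 2 * (Est.ker 4 ε d / r) := by
      have h4 : Est.ker 5 ε d * (1 / r) ≤ Est.ker 4 ε d * (1 / r) :=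
        mul_le_mul_of_nonneg_right hk45 (by positivity)
      have h5 : Est.ker 5 ε d * (d / r ^ 2) ≤ Est.ker 4 ε d * (1 / r) := by
        calc Est.ker 5 ε d * (d / r ^ 2) = d * Est.ker (4 + 1) ε d / r ^ 2 := by ring
          _ ≤ ε * Est.ker 4 ε d / r ^ 2 := div_le_div_of_nonneg_right hk45' (sq_nonneg r)
          _ = Est.ker 4 ε d * (ε / r ^ 2) := by ring
          _ ≤ _ := mul_le_mul_of_nonneg_left hεr hk4
      rw [mul_add, div_eq_mul_one_div (Est.ker 4 ε d) r]
      linarith only [h4, h5]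
    have he2 : ε ^ 2 * Est.ker 5 ε d * (1 / r ^ 2) ≤ Est.ker 4 ε d / r := by
      calc ε ^ 2 * Est.ker 5 ε d * (1 / r ^ 2) ≤ ε * Est.ker 4 ε d * (1 / r ^ 2) := by
            refine mul_le_mul_of_nonneg_right (mul_le_mul ?_ hk45
              (Est.ker_nonneg 5 ε d) hε.le) (one_div_nonneg.2 (sq_nonneg r))
            rw [pow_two]
            exact mul_le_of_le_one_left hε.le (hεs.trans hs1)
        _ = Est.ker 4 ε d * (ε / r ^ 2) := by ring
        _ ≤ Est.ker 4 ε d * (1 / r) := mul_le_mul_of_nonneg_left hεr hk4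
        _ = _ := mul_one_div _ _
    have hd0 : 0 ≤ d := norm_nonneg _
    set Y := Cl * (1 / r + d / r ^ 2)
    have hY : 0 ≤ Y := by positivity
    have herr : W * Y + C₁ * ε ^ 2 * Est.ker 5 ε d * (Ct / r ^ 2)
        ≤ CT * (Est.ker 4 ε d / r) := by
      have h6 := mul_le_mul_of_nonneg_right hW hY
      have h7 := mul_le_mul_of_nonneg_left he1 (show 0 ≤ C₁ * Cl by positivity)
      have h8 := mul_le_mul_of_nonneg_left he2 (show 0 ≤ C₁ * Ct by positivity)
      have h9 := mul_le_mul_of_nonneg_right (le_max_left (C₁ * (2 * Cl + Ct)) (16 * c))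
        (div_nonneg hk4 hr.le)
      simp only [Y] at h6 ⊢
      simp only [hCTd]
      have e2 : C₁ * Ct * (ε ^ 2 * Est.ker 5 ε d * (1 / r ^ 2))
          = C₁ * ε ^ 2 * Est.ker 5 ε d * (Ct / r ^ 2) := by ring
      have e3 : C₁ * Est.ker 5 ε d * (Cl * (1 / r + d / r ^ 2))
          = C₁ * Cl * (Est.ker 5 ε d * (1 / r + d / r ^ 2)) := by ring
      have e4 : C₁ * Cl * (2 * (Est.ker 4 ε d / r)) + C₁ * Ct * (Est.ker 4 ε d / r)
          = C₁ * (2 * Cl + Ct) * (Est.ker 4 ε d / r) := by ring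
      generalize Est.ker 4 ε d / r = k at *
      linarith only [h6, h7, h8, h9, e2, e3, e4]
    simp only [hw', e1]
    split_ifs with hnear
    · have hdc : d ≤ c * ε := hnear.trans (mul_le_mul_of_nonneg_right (min_le_left _ _) hε.le)
      have hdδ : d ≤ δ := hnear.trans
        ((mul_le_of_le_one_left hε.le (min_le_right _ _)).trans (hεs.trans hsδ))
      have h10 := mul_le_mul_of_nonneg_left (hl2 hdδ) hw0
      have h11 : cT * (c / ε ^ 4 * (s ^ 2 / r ^ 4)) ≤ W * (cl * (s ^ 2 / r ^ 4)) := by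
        calc cT * (c / ε ^ 4 * (s ^ 2 / r ^ 4)) ≤ cl * (W * (s ^ 2 / r ^ 4)) :=
              mul_le_mul (min_le_left _ _)
                (mul_le_mul_of_nonneg_right (hwlow hdc) (by positivity)) (by positivity) hcl.le
          _ = _ := by ring
      simp only [Y] at herr
      linarith only [hmain', h10, h11, herr]
    · have h10 := mul_le_mul_of_nonneg_left hl1 hw0
      simp only [Y] at herr
      rw [zero_mul, mul_zero]
      linarith only [hmain', h10, herr]
  have h := hG.test_bound hπ hcT hCT hε hεs x hFi w' hw'm hw'0 hw'le hmass hlow hFN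
  set I := ∫ p, 1 / Real.sqrt (rS A x (pr A p) ^ 2 + s ^ 2) ∂mS A m
  have hI : 0 ≤ I := integral_nonneg fun p => by positivity
  have hKK : (4 * (1 : ℝ) ^ 2 * (2 + CT * 128 * AA / cT)) ^ 2 ≠ 0 := by positivity
  calc (mS A m).real {p | rS A x (pr A p) ≤ s}
      = Kc * s ^ 2 * (cT * cT / (4 * (1 : ℝ) ^ 2 * (2 + CT * 128 * AA / cT)) ^ 2 / s ^ 2
          * (mS A m).real {p | rS A x (pr A p) ≤ s}) := by
        rw [hKc]; field_simp
    _ ≤ Kc * s ^ 2 * (KP * (1 + C₁) * n + CT * (768 * 1 * AA) * I) :=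
        mul_le_mul_of_nonneg_left h (by positivity)
    _ ≤ Kc * s ^ 2 * ((KP * (1 + C₁) + CT * (768 * 1 * AA)) * (n + I)) := by
        refine mul_le_mul_of_nonneg_left ?_ (by positivity)
        have h12 : 0 ≤ KP * (1 + C₁) * I := by positivity
        have h13 : 0 ≤ CT * (768 * 1 * AA) * n := by positivity
        linarith only [h12, h13]
    _ = _ := by ring

end Vale.Agent.P204.General.Apriori
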