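import Mathlib
import Vale.Agent.P204.General.Apriori.Test
import Vale.Agent.P204.General.Stmts

/-!
# P204 module G: the a priori bounds
-/

open MeasureTheory Matrix Filter Set
open scoped ContDiff Topology

namespace Vale.Agent.P204.General

open Vale.Agent.P204.Torus Apriori

/-- The a priori bounds, from the smoothing and the test potential. -/
theorem aprioriStmt (hS : SmoothStmt) (hT : TestStmt) : AprioriStmt := by
  intro N K A J m R C₀ hJ hm hR
  have := hm.finite
  have := isFiniteMeasure_mS (A := A) hm.finite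
  have : Nonempty (XS A) := A.nonempty.to_subtype
  obtain ⟨D, AA, hG⟩ := exists_geom A
  have hπ := measurable_pr A
  obtain ⟨cb, Cb, -, -, -, -, -, -, -, h0, -⟩ := basicStmt A J hJ
  obtain ⟨c, C, ε₀, hc, hε₀, G, kf, w, hlim, hsm⟩ := hS A J m R C₀ hJ hm hR
  obtain ⟨c₀, ε₁, K₁, hc₀, hε₁, hK₁, hquad⟩ := exists_quad (C := C) hJ hm hc
  obtain ⟨ε₂, K₂, hε₂, hK₂, htest⟩ := exists_test (C := C) hJ hT hm hR hc
  set εm := min ε₀ (min ε₁ (min ε₂ 1)) with hεmd
  have hεm : 0 < εm := lt_min hε₀ (lt_min hε₁ (lt_min hε₂ one_pos))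
  have hm0 : εm ≤ ε₀ := min_le_left _ _
  have hm1 : εm ≤ ε₁ := (min_le_right _ _).trans (min_le_left _ _)
  have hm2 : εm ≤ ε₂ := (min_le_right _ _).trans ((min_le_right _ _).trans (min_le_left _ _))
  set M := (mS A m).real univ
  have hM : 0 ≤ M := measureReal_nonneg
  have hex : ∀ ε, ∃ V : Amb N → MN N, 0 < ε → ε ≤ ε₀ → L2X A V ∧ (∀ x, (V x)ᵀ = -V x) ∧
      (∀ a, IsTestX A a → R (G ε a) = A.wedgeInt V a) ∧
      A.n2 (fun x => inv11X J x (V x)) ≤ C * ε * A.n2 V ∧
      (∫ p, ∫ q, A.wedgeInt (fun x => kf ε x p) (fun x => kf ε x q) ∂m ∂m)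
        + 2 * (∫ p, A.wedgeInt V (fun x => kf ε x p) ∂m) + A.wedgeInt V V = 0 := fun ε => by
    by_cases h : 0 < ε ∧ ε ≤ ε₀
    · obtain ⟨-, V, h1, h2, h3, h4, h5, -⟩ := hsm ε h.1 h.2
      exact ⟨V, fun _ _ => ⟨h1, h2, h3, h4, h5⟩⟩
    · exact ⟨0, fun h1 h2 => absurd ⟨h1, h2⟩ h⟩
  choose V hV using hex
  obtain ⟨B, hB, hbd, hgrow⟩ := hG.core (m := mS A m) hπ (C := max K₁ K₂) hεm
    (fun ε => A.n2 (V ε)) (offE A J m c₀) (fun ε _ _ => Real.sqrt_nonneg _)
    (fun ε hε _ => offE_nonneg hJ hε)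
    (fun ε ν hε hle hν0 hν => by
      obtain ⟨h1, h2, -, h4, h5⟩ := hV ε hε (hle.trans hm0)
      refine (hquad ε (G ε) (kf ε) (w ε) (V ε) hε (hle.trans hm1) (hsm ε hε (hle.trans hm0)).1
        h1 h2 h4 h5 ν hν0 hν).trans ?_
      exact mul_le_mul_of_nonneg_right (le_max_left _ _)
        (add_nonneg (mul_nonneg hν0 hM) (mul_nonneg (Real.sqrt_nonneg _) (Real.sqrt_nonneg _))))
    (fun ε s x hε hεs hs => by
      obtain ⟨h1, h2, h3, h4, -⟩ := hV ε hε ((hεs.trans hs).trans hm0)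
      refine (htest ε s x (G ε) (kf ε) (w ε) (V ε) hε hεs (hs.trans hm2)
        (hsm ε hε ((hεs.trans hs).trans hm0)).1 h1 h2 h4 h3).trans ?_
      refine mul_le_mul (mul_le_mul_of_nonneg_right (le_max_right _ _) (sq_nonneg s))
        (by linarith only [hM]) (add_nonneg (Real.sqrt_nonneg _)
          (integral_nonneg fun p => by positivity)) (by positivity))
  obtain ⟨ρ, hρ, hρs, hρa, hρR⟩ := exists_density hJ inferInstance (ae_mem_X A) h0 hR.add hR.smul
    hR.inv (B := B) hεm hlim fun ε hε hle =>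
      ⟨V ε, (hV ε hε (hle.trans hm0)).1, (hV ε hε (hle.trans hm0)).2.1, (hbd ε hε hle).1,
        (hV ε hε (hle.trans hm0)).2.2.1⟩
  -- growth at every point of the ambient space
  have hgrowth : ∀ x r, 0 < r → (m {p | ‖x - p.1‖ ≤ r}).toReal ≤ 4 * B * r ^ 2 := fun x r hr => by
    show m.real {p | ‖x - p.1‖ ≤ r} ≤ _
    rw [← mS_real hm.supp]
    by_cases h : ∃ x₀ ∈ A.X, ‖x - x₀‖ ≤ r
    · obtain ⟨x₀, hx₀, hx⟩ := h
      refine (measureReal_mono (s₂ := {p | rS A ⟨x₀, hx₀⟩ (pr A p) ≤ 2 * r}) fun p hp => ?_).trans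
        ((hgrow ⟨x₀, hx₀⟩ (2 * r) (by positivity)).trans_eq (by ring))
      show ‖x₀ - p.1.1‖ ≤ 2 * r
      refine (norm_sub_le_norm_sub_add_norm_sub x₀ x p.1.1).trans ?_
      rw [two_mul, norm_sub_rev x₀ x]
      exact add_le_add hx hp
    · have e : (Subtype.val ⁻¹' {p : Amb N × Amb N | ‖x - p.1‖ ≤ r} : Set (TS A)) = ∅ := by
        ext p
        exact iff_of_false (fun hp => h ⟨p.1.1, p.2.1, hp⟩) (notMem_empty p)
      rw [e, measureReal_empty]
      positivity
  -- the distance to the lines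
  obtain ⟨ct, Ct₀, hct, hpot0⟩ := hT A J hJ
  obtain ⟨KP, hKP, hpair⟩ := exists_pot_pair hJ hT
  set Ct := |Ct₀|
  set E := Ct ^ 2 / 2 * (KP * A.n2 ρ + Ct * (M + 8 * B))
  have hline : ∀ x ∈ A.X, ∀ s, 0 < s → s ≤ 1 →
      ∫ p, A.offX J p.1 p.2 (x - p.1) / rsX s x p.1 ^ 4 ∂m ≤ E := fun x hx s hs hs1 => by
    rw [← int_mS hm.supp]
    obtain ⟨hclosed, -, -, hcont, -, -, -, hpt⟩ := hpot0 s hs hs1
    set a := A.ddPot J s x
    have hac : IsClosedX A a := hclosed x hx
    set Lf : TS A → ℝ := fun p => p.1.2 ⬝ᵥ (a p.1.1 *ᵥ (J p.1.1 *ᵥ p.1.2)) with hLf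
    have hLc : Continuous Lf := by
      have ha : ∀ i k, Continuous fun p : TS A => a p.1.1 i k := fun i k =>
        (hcont i k).comp ((continuous_const (y := (⟨x, hx⟩ : XS A))).prodMk (continuous_pr A))
      have hJc : ∀ i k, Continuous fun p : TS A => J p.1.1 i k := fun i k =>
        (Atlas.J_continuousOn hJ i k).comp_continuous
          (continuous_fst.comp continuous_subtype_val) fun p => p.2.1
      have hv : ∀ i, Continuous fun p : TS A => p.1.2 i := fun i =>
        (continuous_apply i).comp (continuous_snd.comp continuous_subtype_val)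
      simp only [hLf, dotProduct, mulVec]
      exact continuous_finsetSum _ fun i _ => (hv i).mul (continuous_finsetSum _ fun k _ =>
        (ha i k).mul (continuous_finsetSum _ fun l _ => (hJc k l).mul (hv l)))
    have : CompactSpace (TS A) := isCompact_iff_compactSpace.1 A.isCompact_unitTan
    obtain ⟨bL, hbL⟩ := isCompact_univ.exists_bound_of_continuousOn hLc.continuousOn
    have iL : Integrable Lf (mS A m) :=
      Integrable.of_bound hLc.measurable.aestronglyMeasurable bL (ae_of_all _ fun p => hbL p trivial)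
    have hr : ∀ p : TS A, 0 < rsX s x p.1.1 := fun p => rsX_pos hs _ _
    have iR : Integrable (fun p : TS A => 1 / rsX s x p.1.1) (mS A m) := by
      refine Integrable.of_bound (Measurable.aestronglyMeasurable ?_) (1 / s) (ae_of_all _ fun p => ?_)
      · unfold rsX
        exact (Continuous.measurable (by fun_prop : Continuous fun p : TS A =>
          Real.sqrt (‖x - p.1.1‖ ^ 2 + s ^ 2))).const_div 1
      · rw [Real.norm_eq_abs, abs_of_nonneg (one_div_nonneg.2 (hr p).le)]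
        exact one_div_le_one_div_of_le hs (le_rsX s _ _)
    have hoff0 : ∀ p : TS A, 0 ≤ A.offX J p.1.1 p.1.2 (x - p.1.1) := fun p =>
      Atlas.offX_nonneg hJ p.2.2.1 _
    have hpw : ∀ p : TS A, A.offX J p.1.1 p.1.2 (x - p.1.1) / rsX s x p.1.1 ^ 4
        ≤ Ct ^ 2 / 2 * (Lf p + Ct * (1 / rsX s x p.1.1)) := fun p => by
      obtain ⟨hq1, hq2, -, -, hl, -⟩ := hpt x hx p.1.1 p.2.1
      have h := (abs_le.1 (hl p.1.2 p.2.2.1 p.2.2.2)).1
      have hg := Atlas.g_nonneg (A := A) (J := J) p.1.1 p.1.2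
      have hoff := hoff0 p
      set r := rsX s x p.1.1
      set Q := A.q0 J x p.1.1 + s ^ 2
      have hr0 : 0 < r := hr p
      have hQ : 0 < Q := lt_of_lt_of_le (mul_pos hct (pow_pos hr0 2)) hq1
      have hQ2 : Q ^ 2 ≤ Ct ^ 2 * r ^ 4 := by
        calc Q ^ 2 ≤ (Ct * r ^ 2) ^ 2 := pow_le_pow_left₀ hQ.le
              (hq2.trans (mul_le_mul_of_nonneg_right (le_abs_self _) (sq_nonneg _))) 2
          _ = _ := by ring
      have hCt : Ct ≠ 0 := fun h0 => by
        rw [h0] at hQ2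
        linarith [pow_pos hQ 2, show ((0:ℝ)) ^ 2 * r ^ 4 = 0 by ring]
      have h1 : 2 * A.offX J p.1.1 p.1.2 (x - p.1.1) / (Ct ^ 2 * r ^ 4)
          ≤ 2 * (A.offX J p.1.1 p.1.2 (x - p.1.1)
            + s ^ 2 * (p.1.2 ⬝ᵥ (A.gMat J p.1.1 *ᵥ p.1.2))) / Q ^ 2 :=
        div_le_div₀ (by positivity) (mul_le_mul_of_nonneg_left
          (le_add_of_nonneg_right (by positivity)) two_pos.le) (by positivity) hQ2
      have h2 : Ct₀ / r ≤ Ct * (1 / r) := by
        rw [mul_one_div]; exact div_le_div_of_nonneg_right (le_abs_self _) hr0.le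
      calc A.offX J p.1.1 p.1.2 (x - p.1.1) / r ^ 4
          = Ct ^ 2 / 2 * (2 * A.offX J p.1.1 p.1.2 (x - p.1.1) / (Ct ^ 2 * r ^ 4)) := by field_simp
        _ ≤ Ct ^ 2 / 2 * (Lf p + Ct * (1 / r)) := by
            refine mul_le_mul_of_nonneg_left ?_ (by positivity)
            simp only [hLf]
            linarith only [h, h1, h2]
    refine (integral_mono_of_nonneg (ae_of_all _ fun p => div_nonneg (hoff0 p) (by positivity))
      ((iL.fun_add (iR.const_mul Ct)).const_mul _) (ae_of_all _ hpw)).trans ?_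
    rw [integral_const_mul, integral_add iL (iR.const_mul Ct), integral_const_mul]
    refine mul_le_mul_of_nonneg_left (add_le_add ?_ ?_) (by positivity)
    · have hk := hR.kills a hac
      rw [hρR a hac.toIsTestX, tcurX] at hk
      have e : ∫ p, Lf p ∂mS A m = -A.wedgeInt ρ a := by
        simp only [hLf]
        rw [int_mS hm.supp fun p => p.2 ⬝ᵥ (a p.1 *ᵥ (J p.1 *ᵥ p.2))]
        linarith only [hk]
      have hinv : A.n2 (fun y => inv11X J y (ρ y)) ≤ 0 := by
        rw [n2_eq]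
        have e0 : ∀ y : XS A, A.sN y.1 (inv11X J y.1 (ρ y.1)) ^ 2 = 0 := fun y => by
          rw [inv_zero_of_anti (hρa y.1 y.2), A.sq_sN]
          simp [Atlas.sqX, Atlas.pullAt, sq2]
        simp [e0]
      rw [e]
      exact (neg_le_abs _).trans ((hpair ρ 0 hρ hρs hinv s hs hs1 x hx).trans_eq (by simp))
    · have h := hG.pot_atoms_from (m := mS A m) hπ hB (fun y t ht => hgrow y t (hs.trans_le ht))
        hs le_rfl one_pos ⟨x, hx⟩
      rw [div_one, mul_one] at h
      exact mul_le_mul_of_nonneg_left h (abs_nonneg _)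
  -- the logarithmic bound
  obtain ⟨F₀, hF₀⟩ := exists_offF_bound hJ
  obtain ⟨B', hB'⟩ := hG.log_bound (m := mS A m) hπ (c := c₀ ^ 4) (B := B) (F₀ := F₀)
    (ε₁ := c₀ * εm) (F := fun p q => A.offX J q.1.1 q.1.2 p.1.2) (pow_pos hc₀ 4) hB
    (mul_pos hc₀ hεm) (continuous_offF hJ).measurable (offF_nonneg hJ) hF₀
    (k := fun e p q => nearW c₀ (e / c₀) (rS A (pr A p) (pr A q)))
    (fun e _ _ => (measurable_nearW _ _).comp measurable_dist_pr)
    (fun e he _ => ⟨1 / (e / c₀) ^ 4, fun p q => nearW_le (div_pos he hc₀) _⟩)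
    (fun e p q he _ => nearW_nonneg (div_pos he hc₀) _)
    (fun e p q he _ hd => by
      rw [nearW, if_pos (hd.trans_eq (by field_simp))]
      exact le_of_eq (by field_simp))
    (fun e he hle => (hbd (e / c₀) (div_pos he hc₀) ((div_le_iff₀ hc₀).2 (by linarith only [hle]))).2)
  refine ⟨ρ, max (4 * B) (max E B'), hρ, hρs, hρa, hρR, fun x r hr => (hgrowth x r hr).trans ?_,
    fun x hx s hs hs1 => (hline x hx s hs hs1).trans (le_max_of_le_right (le_max_left _ _)),
    fun s hs hs2 => ?_⟩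
  · exact mul_le_mul_of_nonneg_right (le_max_left _ _) (sq_nonneg r)
  · rw [← int_mS₂ hm.supp]
    refine (hB' s hs hs2).trans (mul_le_mul_of_nonneg_right
      (le_max_of_le_right (le_max_right _ _)) ?_)
    exact Real.log_nonneg (by rw [le_div_iff₀ hs]; linarith only [hs2])

end Vale.Agent.P204.General
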